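import Vale.Agent.P218EN.Lin

/-! The boundary layer weight `g exp ((w - b) / 4) + ψ`, and the modes `±1` in rapidly decaying
weights. -/

namespace Vale.Agent.P218E2
open Set Complex Vale.Agent.P218EN

/-- the boundary layer weight -/
noncomputable def lay (b g : ℝ) (ψ : ℝ → ℝ) (w : ℝ) : ℝ := g * Real.exp ((w - b) / 4) + ψ w

/-- weights of the prescribed values: the pins only see the slow part -/
noncomputable def layX (a b g : ℝ) (ψ : ℝ → ℝ) (k : ℤ) : ℝ :=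
  if 2 ≤ kp (-2) k then lay b g ψ a else ψ b

variable {a b ε g c : ℝ} {A A' y p f : ℝ → ℂ} {ψ ψ' : ℝ → ℝ} {k : ℤ}

theorem hasDeriv_H (b : ℝ) (S : Set ℝ) (w : ℝ) :
    HasDerivWithinAt (fun u => Real.exp ((u - b) / 8)) (Real.exp ((w - b) / 8) / 8) S w := by
  refine ((((hasDerivAt_id w).sub_const b).div_const 8).exp.hasDerivWithinAt).congr_deriv ?_
  simp only [id]; ring

theorem lay_pos (hg : 0 ≤ g) {w : ℝ} (h : 0 < ψ w) : 0 < lay b g ψ w := by
  have := Real.exp_pos ((w - b) / 4)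
  unfold lay; positivity

theorem le_lay (hg : 0 ≤ g) (w : ℝ) : ψ w ≤ lay b g ψ w :=
  le_add_of_nonneg_left (mul_nonneg hg (Real.exp_pos _).le)

theorem lay_deriv (O : AdmO a b A ψ ψ') {w : ℝ} (hw : w ∈ Icc a b) :
    HasDerivWithinAt (lay b g ψ) (g * (Real.exp ((w - b) / 4) / 4) + ψ' w) (Icc a b) w :=
  ((Coef.hasDeriv_E b _ w).const_mul g).add (O.hd w hw)

theorem lay_up (H : Coef a b A A' ε) (O : AdmO a b A ψ ψ') (hg : 0 ≤ g) {w : ℝ}
    (hw : w ∈ Icc a b) :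
    g * (Real.exp ((w - b) / 4) / 4) + ψ' w ≤ 3 / 10 * lay b g ψ w := by
  have h6 : (A w).re ≤ 1 / 1000 := (re_le_norm _).trans (H.As hw)
  have := mul_nonneg hg (Real.exp_pos ((w - b) / 4)).le
  unfold lay
  nlinarith [O.up w hw, O.pos w hw]

theorem lay_high (H : Coef a b A A' ε) (hd : ∀ w ∈ Icc a b, ‖A w‖ ≤ 2 * (A w).re)
    (O : AdmO a b A ψ ψ') (hg : 0 ≤ g) (hk : 2 ≤ kp (-2) k) (h : MEq a b A (kp (-2) k) y p f)
    (hc : 0 ≤ c) (hf : ∀ w ∈ Icc a b, ‖f w‖ ≤ c * lay b g ψ w)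
    (ha : (1 + (k : ℝ) ^ 2) * ‖y a‖ ≤ c * lay b g ψ a)
    (hb : (1 + rk k (A b)) * ‖p b - y b‖ ≤ c * lay b g ψ b) : ∀ w ∈ Icc a b,
    (1 + (k : ℝ) ^ 2) * ‖y w‖ ≤ 3000000 * c * lay b g ψ w ∧
      (1 + rk k (A w)) * ‖p w‖ ≤ 3000000 * c * lay b g ψ w := by
  have hs : (-2 : ℝ) = -2 ∨ (-2 : ℝ) = 2 := Or.inl rfl
  have hbi : b ∈ Icc a b := right_mem_Icc.2 H.le
  have hai : a ∈ Icc a b := left_mem_Icc.2 H.le
  have κ0 : 0 < kp (-2) k := by linarith
  have L0 : ∀ w ∈ Icc a b, 0 < lay b g ψ w := fun w hw => lay_pos hg (O.pos w hw)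
  have key := (H.mc (kp_ge hs k)).fwd (c := 2 * c) (d := p b - y b)
    (ψ := fun u => lay b g ψ u / kp (-2) k) (by positivity) h.hP h.hy' (by ring)
    (fun w hw => lay_deriv O hw) (fun w hw => (L0 w hw).le) (fun w hw => lay_up H O hg hw)
    (fun w hw => (lay_deriv O hw).div_const _) (fun w hw => (div_pos (L0 w hw) κ0).le)
    (fun w hw => ?_) (H.low_cp hs (div_pos (L0 b hbi) κ0).le (by
      rw [max_eq_right (by linarith), mul_div_cancel₀ _ κ0.ne']))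
    (fun w hw => by nlinarith [hf w hw, mul_nonneg hc (L0 w hw).le]) ?_
    (H.robin hs hc hb le_rfl)
  · intro w hw
    have := L0 w hw
    refine out_bound hs k (H.re w hw) (H.As hw) hc (by linarith) ?_ (key w hw)
    rw [max_eq_right (by linarith), mul_div_cancel₀ _ κ0.ne']
    linarith
  · obtain ⟨f1, -, f3, -, -, -, -, f8, -, f10⟩ := nn_facts hk (H.re w hw) (H.As hw)
    have h0 := nn_re hk (H.re w hw)
    have h1 := O.pos w hw
    have h2 := O.lo w hw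
    have h3 := mul_nonneg hg (Real.exp_pos ((w - b) / 4)).le
    have h4 : ‖nn (kp (-2) k) (A w)‖ ≤ 2 * (nn (kp (-2) k) (A w)).re := by
      refine le_of_mul_le_mul_left ?_ (H.re w hw)
      nlinarith [mul_le_mul_of_nonneg_right (hd w hw) h0]
    set n := nn (kp (-2) k) (A w)
    have e1 : ‖A w‖ * lay b g ψ w / ‖1 + n‖ = ‖n‖ * lay b g ψ w / kp (-2) k := by
      rw [div_eq_div_iff (by linarith) κ0.ne']
      linear_combination (-(lay b g ψ w)) * f1
    rw [e1, ← mul_div_assoc n.re, ← add_div, ← mul_div_assoc]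
    refine div_le_div_of_nonneg_right ?_ κ0.le
    have h5 : n.re / 16 * ψ w ≤ ψ' w + n.re * ψ w := by nlinarith
    have h6 := mul_le_mul_of_nonneg_right h4 (L0 w hw).le
    unfold lay at h6 ⊢
    nlinarith [mul_nonneg h0 h3]
  · have h1 := (kp_max hs k).2.1
    rw [max_eq_right (by linarith)] at h1
    rw [← mul_div_assoc, le_div_iff₀ κ0]
    nlinarith [mul_le_mul_of_nonneg_left h1 (norm_nonneg (y a))]

theorem low_re (hk : ¬2 ≤ kp (-2) k) {A : ℂ} (hA : 0 < A.re) :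
    max 1 (kp (-2) k) = 1 ∧ (nn (kp (-2) k) A).re ≤ -A.re := by
  have : kp (-2) k ≤ -1 := by
    rcases kp_cases (Or.inl rfl) k with h | ⟨-, rfl⟩ | ⟨-, rfl | rfl⟩
    · exact absurd h hk
    all_goals norm_num [kp]
  refine ⟨max_eq_left (by linarith), ?_⟩
  rw [nn, if_neg hk, re_ofReal_mul]
  nlinarith

theorem lay_low (H : Coef a b A A' ε) (hd : ∀ w ∈ Icc a b, ‖A w‖ ≤ 2 * (A w).re)
    (O : AdmO a b A ψ ψ') (hg : 0 ≤ g)
    (hl : ∀ w ∈ Icc a b, g * ‖A w‖ * Real.exp ((w - b) / 8) ≤ 2 * ψ w) (hk : ¬2 ≤ kp (-2) k)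
    (h : MEq a b A (kp (-2) k) y p f) (hc : 0 ≤ c)
    (hf : ∀ w ∈ Icc a b, ‖f w‖ ≤ c * lay b g ψ w) (ha : (1 + (k : ℝ) ^ 2) * ‖y b‖ ≤ c * ψ b)
    (hb : (1 + rk k (A b)) * ‖p b - y b‖ ≤ c * lay b g ψ b) : ∀ w ∈ Icc a b,
    (1 + (k : ℝ) ^ 2) * ‖y w‖ ≤ 3000000 * c * lay b g ψ w ∧
      (1 + rk k (A w)) * ‖p w‖ ≤ 3000000 * c * lay b g ψ w := by
  have hs : (-2 : ℝ) = -2 ∨ (-2 : ℝ) = 2 := Or.inl rfl
  have hbi : b ∈ Icc a b := right_mem_Icc.2 H.le
  have L0 : ∀ w ∈ Icc a b, 0 < lay b g ψ w := fun w hw => lay_pos hg (O.pos w hw)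
  have E0 : ∀ w, 0 < Real.exp ((w - b) / 8) := fun w => Real.exp_pos _
  have E1 : ∀ w ∈ Icc a b, Real.exp ((w - b) / 8) ≤ 1 := fun w hw =>
    Real.exp_le_one_iff.2 (by linarith [hw.2])
  have Eb : Real.exp ((b - b) / 8) = 1 := by simp
  have κm := (low_re hk (H.re b hbi)).1
  have ob := O.pos b hbi
  have key := (H.mc (kp_ge hs k)).bwd (c := 2 * c) (d := p b - y b)
    (ψ := fun u => ψ u * (2 - Real.exp ((u - b) / 8))) (by positivity) h.hP h.hy' (by ring)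
    (fun w hw => lay_deriv O hw) (fun w hw => (L0 w hw).le) (fun w hw => lay_up H O hg hw)
    (fun w hw => (O.hd w hw).mul ((hasDeriv_H b _ w).const_sub 2))
    (fun w hw => by nlinarith [O.pos w hw, E1 w hw]) (fun w hw => ?_)
    (H.low_cp hs (by nlinarith) (by rw [κm, Eb]; linarith [le_lay (b := b) (ψ := ψ) hg b]))
    (fun w hw => by nlinarith [hf w hw, mul_nonneg hc (L0 w hw).le])
    (by
      rw [Eb]
      nlinarith [mul_nonneg (sq_nonneg (k : ℝ)) (norm_nonneg (y b)), mul_nonneg hc ob.le])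
    (H.robin hs hc hb le_rfl)
  · intro w hw
    have := O.pos w hw
    exact out_bound hs k (H.re w hw) (H.As hw) hc (by linarith [L0 w hw])
      (by rw [κm]; nlinarith [E0 w, le_lay (b := b) (ψ := ψ) hg w]) (key w hw)
  · have h1 := O.pos w hw
    have h3 := E0 w
    refine (H.low_div (kp_ge hs k) hw (L0 w hw).le).trans ?_
    have e := (low_re hk (H.re w hw)).2
    have e2 : Real.exp ((w - b) / 4) = Real.exp ((w - b) / 8) * Real.exp ((w - b) / 8) := by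
      rw [← Real.exp_add]; congr 1; ring
    have h5 : 1 / 8 * (A w).re * ψ w ≤ (A w).re * ψ w - ψ' w := by linarith [O.up w hw]
    have h6 := mul_pos (H.re w hw) h1
    have h7 : 0 ≤ 2 - Real.exp ((w - b) / 8) := by linarith [E1 w hw]
    unfold lay
    rw [e2]
    nlinarith [mul_le_mul_of_nonneg_right h5 h7, mul_le_mul_of_nonneg_left (E1 w hw) h6.le,
      mul_le_mul_of_nonneg_right (hl w hw) h3.le, mul_le_mul_of_nonneg_right (hd w hw) h1.le,
      mul_le_mul_of_nonneg_right e (mul_nonneg h1.le h7)]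

/-- **(E2b)** the model operator can be inverted in the boundary layer weight -/
theorem gb_lay (H : Coef a b A A' ε) (hd : ∀ w ∈ Icc a b, ‖A w‖ ≤ 2 * (A w).re)
    (O : AdmO a b A ψ ψ') (hg : 0 ≤ g)
    (hl : ∀ w ∈ Icc a b, g * ‖A w‖ * Real.exp ((w - b) / 8) ≤ 2 * ψ w) :
    GB a b (-2) A (pt a b (-2)) (layX a b g ψ) 1 (lay b g ψ) (lay b g ψ) 3000000 := by
  have e : ∀ (f : ℝ → ℝ) k, wt f f k = f := fun f k => by unfold wt; split_ifs <;> rfl
  have L0 : ∀ w ∈ Icc a b, 0 < lay b g ψ w := fun w hw => lay_pos hg (O.pos w hw)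
  have hc : ContinuousOn (lay b g ψ) (Icc a b) := fun w hw =>
    (lay_deriv O hw).continuousWithinAt
  refine ⟨Or.inl rfl, by norm_num, fun k => ?_, fun w hw => ⟨L0 w hw, L0 w hw⟩, ⟨hc, hc⟩,
    fun w hw => H.dl_le hw, fun _ _ => le_rfl, fun k y p f c h hc hf ha hb => ?_⟩
  · unfold layX; split_ifs
    · exact (L0 a (left_mem_Icc.2 H.le)).le
    · exact (O.pos b (right_mem_Icc.2 H.le)).le
  · simp only [Pi.one_apply, one_mul, e] at hf hb ⊢
    by_cases hk : 2 ≤ kp (-2) k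
    · rw [pt, layX, if_pos hk, if_pos hk] at ha
      exact lay_high H hd O hg hk h hc hf ha hb
    · rw [pt, layX, if_neg hk, if_neg hk] at ha
      exact lay_low H hd O hg hl hk h hc hf ha hb

/-- admissible weight for the modes `±1`; it may decay arbitrarily fast -/
structure AdmU (a b : ℝ) (A : ℝ → ℂ) (ψ ψ' : ℝ → ℝ) : Prop where
  pos : ∀ w ∈ Icc a b, 0 < ψ w
  hd : ∀ w ∈ Icc a b, HasDerivWithinAt ψ (ψ' w) (Icc a b) w
  up : ∀ w ∈ Icc a b, ψ' w ≤ 7 / 8 * (A w).re * ψ w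

theorem mode_one (H : Coef a b A A' ε) (hk : k = 1 ∨ k = -1) (O : AdmU a b A ψ ψ')
    (h : MEq a b A (kp (-2) k) y p f) (hc : 0 ≤ c)
    (hf : ∀ w ∈ Icc a b, ‖f w‖ ≤ c * (dl A w * ψ w))
    (ha : (1 + (k : ℝ) ^ 2) * ‖y b‖ ≤ c * ψ b)
    (hd : (1 + rk k (A b)) * ‖p b - y b‖ ≤ c * ψ b) : ∀ w ∈ Icc a b,
    (1 + (k : ℝ) ^ 2) * ‖y w‖ ≤ 3000000 * c * ψ w ∧
      (1 + rk k (A w)) * ‖p w‖ ≤ 3000000 * c * ψ w := by
  have hs : (-2 : ℝ) = -2 ∨ (-2 : ℝ) = 2 := Or.inl rfl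
  have hb : b ∈ Icc a b := right_mem_Icc.2 H.le
  choose! δ' hδ using fun w (hw : w ∈ Icc a b) => H.exists_dl' hw
  have κ1 : kp (-2) k = -1 := by rcases hk with rfl | rfl <;> norm_num [kp]
  have κm : max 1 (kp (-2) k) = 1 := by rw [κ1]; norm_num
  have E0 : ∀ w, 0 < Real.exp ((w - b) / 4) := fun w => Real.exp_pos _
  have E1 : ∀ w ∈ Icc a b, Real.exp ((w - b) / 4) ≤ 1 := fun w hw =>
    Real.exp_le_one_iff.2 (by linarith [hw.2])
  have Eb : Real.exp ((b - b) / 4) = 1 := by simp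
  have ob := O.pos b hb
  have key := (H.mc (kp_ge hs k)).bwd (c := 2 * c) (d := p b - y b)
    (φ := fun u => ψ u * (dl A u + Real.exp ((u - b) / 4)))
    (ψ := fun u => ψ u * (2 - Real.exp ((u - b) / 4))) (by positivity) h.hP h.hy'
    (by ring) (fun w hw => (O.hd w hw).mul ((hδ w hw).1.add (Coef.hasDeriv_E b _ w)))
    (fun w hw => (mul_pos (O.pos w hw) (add_pos (H.dl_pos hw) (E0 w))).le) (fun w hw => ?_)
    (fun w hw => (O.hd w hw).mul ((Coef.hasDeriv_E b _ w).const_sub 2))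
    (fun w hw => by nlinarith [O.pos w hw, E1 w hw]) (fun w hw => ?_)
    (H.low_cp hs (by nlinarith) (by rw [κm]; nlinarith [H.dl_pos hb]))
    (fun w hw => by
      have := O.pos w hw
      nlinarith [hf w hw, mul_nonneg hc (mul_pos this (E0 w)).le,
        mul_nonneg hc (mul_pos this (H.dl_pos hw)).le])
    (by
      rw [Eb]
      nlinarith [mul_nonneg (sq_nonneg (k : ℝ)) (norm_nonneg (y b)), mul_nonneg hc ob.le])
    (H.robin hs hc hd (by nlinarith [H.dl_pos hb]))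
  · intro w hw
    have := O.pos w hw
    exact out_bound hs k (H.re w hw) (H.As hw) hc
      (by nlinarith [H.dl_le hw, E1 w hw]) (by rw [κm]; nlinarith [E0 w]) (key w hw)
  · have h1 := O.up w hw
    have h2 := O.pos w hw
    have h3 := (hδ w hw).2
    have h4 := H.dl_pos hw
    have h5 := E0 w
    have h6 : (A w).re ≤ 1 / 1000 := (re_le_norm _).trans (H.As hw)
    have h7 : ψ' w ≤ 1 / 1000 * ψ w := by nlinarith
    nlinarith [mul_le_mul_of_nonneg_right h7 (add_pos h4 h5).le,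
      mul_le_mul_of_nonneg_left h3 h2.le, mul_pos h2 h4, mul_pos h2 h5]
  · have h1 := O.pos w hw
    have h3 := E0 w
    refine (H.low_div (kp_ge hs k) hw (mul_pos h1 (add_pos (H.dl_pos hw) h3)).le).trans ?_
    have e : (nn (kp (-2) k) (A w)).re = -(A w).re := by
      rw [κ1, nn, if_neg (by norm_num)]; simp
    rw [e]
    have h4 := H.dl_mul hw
    have h5 : 1 / 8 * (A w).re * ψ w ≤ (A w).re * ψ w - ψ' w := by linarith [O.up w hw]
    have h6 := mul_pos (H.re w hw) h1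
    nlinarith [mul_le_mul_of_nonneg_right h5 (by linarith [E1 w hw] :
      0 ≤ 2 - Real.exp ((w - b) / 4)), mul_le_mul_of_nonneg_right (H.As hw) (mul_pos h1 h3).le,
      mul_le_mul_of_nonneg_left (E1 w hw) h6.le]

end Vale.Agent.P218E2
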