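import Vale.Agent.P218CH.Rp
import Vale.Agent.P218E2.Layer

/-! Power weights `|w / (1 - α w)| ^ β` and the non-tip regime `|α| b ≤ 1 / 2`. -/

namespace Vale.Agent.P218E2
open Set Complex Vale.Agent.P218EN Vale.Agent.P218CH

/-- `|w / (1 - α w)|` -/
noncomputable def zz (α : ℂ) (w : ℝ) : ℝ := ‖(w : ℂ) / (1 - α * w)‖

variable {a b w : ℝ} {α : ℂ}

theorem zz_eq (hw : 0 ≤ w) : zz α w = w / ‖1 - α * w‖ := by
  rw [zz, norm_div, norm_real, Real.norm_of_nonneg hw]

theorem zz_pos (h : Prof a b α) (hw : w ∈ Icc a b) : 0 < zz α w :=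
  norm_pos_iff.2 (div_ne_zero (h.w_ne hw) (h.v_ne hw))

theorem hasDerivAt_zz (h : Prof a b α) (hw : w ∈ Icc a b) (S : Set ℝ) :
    HasDerivWithinAt (zz α) (2 * (Af α w).re * zz α w) S w := by
  have h0 := h.w_ne hw
  have h1 := h.v_ne hw
  have d0 : HasDerivAt (fun u : ℝ => (u : ℂ)) 1 w := ofRealCLM.hasDerivAt
  have d1 : HasDerivAt (fun u : ℝ => (u : ℂ) / (1 - α * u)) (2 * Af α w * (w / (1 - α * w))) w := by
    refine (d0.div ((d0.const_mul α).const_sub 1) h1).congr_deriv ?_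
    simp only [Af]
    field_simp
    ring
  obtain ⟨d, h2, -, h3⟩ := exists_deriv_norm (d1.hasDerivWithinAt (s := S)) (div_ne_zero h0 h1)
  refine h2.congr_deriv ?_
  have h4 := (zz_pos h hw).ne'
  unfold zz at h4 ⊢
  rw [h3, div_eq_iff h4, mul_left_comm, conj_mul', ← ofReal_pow, re_mul_ofReal]
  simp only [mul_re, re_ofNat, im_ofNat, zero_mul, sub_zero]
  ring

theorem hasDerivAt_zz_rpow (h : Prof a b α) (hw : w ∈ Icc a b) (S : Set ℝ) (β : ℝ) :
    HasDerivWithinAt (fun u => zz α u ^ β) (2 * β * (Af α w).re * zz α w ^ β) S w := by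
  have h0 := zz_pos h hw
  refine ((hasDerivAt_zz h hw S).rpow_const (Or.inl h0.ne')).congr_deriv ?_
  rw [Real.rpow_sub_one h0.ne']
  field_simp

/-- the non-tip regime -/
structure NT (a b : ℝ) (α : ℂ) : Prop where
  big : 64 ≤ a
  le : a ≤ b
  small : ‖α‖ * b ≤ 1 / 2

namespace NT

theorem mono (h : NT a b α) {a' b' : ℝ} (ha : a ≤ a') (hab : a' ≤ b') (hb : b' ≤ b) :
    NT a' b' α :=
  ⟨h.big.trans ha, hab, (mul_le_mul_of_nonneg_left hb (norm_nonneg _)).trans h.small⟩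

theorem pos (h : NT a b α) (hw : w ∈ Icc a b) : 0 < w := by linarith [h.big, hw.1]

theorem aw (h : NT a b α) (hw : w ∈ Icc a b) : ‖α * w‖ ≤ 1 / 2 := by
  rw [norm_mul, norm_real, Real.norm_of_nonneg (h.pos hw).le]
  exact (mul_le_mul_of_nonneg_left hw.2 (norm_nonneg _)).trans h.small

theorem v (h : NT a b α) (hw : w ∈ Icc a b) : 1 / 2 ≤ (1 - α * w).re ∧ 1 / 2 ≤ ‖1 - α * w‖ ∧
    ‖1 - α * w‖ ≤ 3 / 2 ∧ ‖1 - α * w‖ ≤ 2 * (1 - α * w).re := by
  have h1 := h.aw hw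
  have h2 := re_le_norm (α * w)
  have h3 := norm_sub_le 1 (α * w)
  have h4 := re_le_norm (1 - α * w)
  have h5 := norm_le_abs_re_add_abs_im (1 - α * w)
  have h6 := abs_im_le_norm (α * w)
  rw [norm_one] at h3
  rw [sub_im, one_im, zero_sub, abs_neg] at h5
  have h7 : 1 / 2 ≤ (1 - α * w).re := by rw [sub_re, one_re]; linarith
  rw [abs_of_pos (by linarith)] at h5
  exact ⟨h7, by linarith, by linarith, by linarith⟩

theorem prof (h : NT a b α) : Prof a b α :=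
  ⟨by linarith [h.big], fun w hw => by linarith [(h.v hw).1]⟩

theorem norm_A (h : NT a b α) (hw : w ∈ Icc a b) : ‖Af α w‖ = (2 * w * ‖1 - α * w‖)⁻¹ := by
  rw [Af, norm_inv, norm_mul, norm_mul, norm_real, Real.norm_of_nonneg (h.pos hw).le,
    Complex.norm_two]

theorem A_le (h : NT a b α) (hw : w ∈ Icc a b) : ‖Af α w‖ ≤ w⁻¹ := by
  have := h.pos hw
  rw [h.norm_A hw]
  exact inv_anti₀ this (by nlinarith [(h.v hw).2.1])

theorem A_ge (h : NT a b α) (hw : w ∈ Icc a b) : (3 * w)⁻¹ ≤ ‖Af α w‖ := by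
  have := h.pos hw
  have h1 := h.v hw
  rw [h.norm_A hw]
  exact inv_anti₀ (by nlinarith [h1.2.1]) (by nlinarith [h1.2.2.1])

theorem A_re (h : NT a b α) (hw : w ∈ Icc a b) : ‖Af α w‖ ≤ 2 * (Af α w).re := by
  have h0 := h.pos hw
  have h1 := h.v hw
  have h2 : 0 < ‖1 - α * w‖ := by linarith [h1.2.1]
  have e : (2 * w * (1 - α * w) : ℂ) = ((2 * w : ℝ) : ℂ) * (1 - α * w) := by push_cast; ring
  rw [h.norm_A hw, Af, inv_re, normSq_eq_norm_sq, e, re_ofReal_mul, norm_mul, norm_real,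
    Real.norm_of_nonneg (by positivity), ← mul_div_assoc, inv_eq_one_div,
    div_le_div_iff₀ (by positivity) (by positivity)]
  nlinarith [mul_le_mul_of_nonneg_left h1.2.2.2 (by positivity : 0 ≤ 4 * w ^ 2 * ‖1 - α * w‖)]

theorem dl_ge (h : NT a b α) (hw : w ∈ Icc a b) : 1 / 2 ≤ dl (Af α) w := by
  have := h.A_re hw
  rw [dl, le_div_iff₀ (norm_pos_iff.2 (h.prof.A_ne hw))]
  linarith

theorem x_eq (h : NT a b α) (hw : w ∈ Icc a b) : ‖xf w‖ = (2 * w)⁻¹ := by
  rw [xf, norm_inv, norm_mul, norm_real, Real.norm_of_nonneg (h.pos hw).le, Complex.norm_two]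

theorem ef_le (h : NT a b α) (hw : w ∈ Icc a b) : ‖ef α w‖ ≤ (4 * w)⁻¹ := by
  have := h.pos hw
  rw [ef, norm_div, norm_mul, norm_real, Real.norm_of_nonneg this.le, Complex.norm_ofNat,
    div_le_iff₀ (by positivity)]
  have e : (4 * w)⁻¹ * (8 * w) = 2 := by field_simp; norm_num
  linarith [(h.v hw).2.2.1]

theorem coef (h : NT a b α) (ha : 8000 ≤ a) : Coef a b (Af α) (Af' α) (8 / a) := by
  have ha0 : 0 < a := by linarith
  have i1 : ∀ w ∈ Icc a b, w⁻¹ ≤ a⁻¹ := fun w hw => inv_anti₀ ha0 hw.1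
  refine ⟨h.le, by rw [div_le_iff₀ ha0]; linarith,
    fun w hw => (h.prof.hasDerivAt_A hw).hasDerivWithinAt, ?_, fun w hw => h.prof.A_re hw,
    fun w hw => ?_, fun w hw => ?_⟩
  · have := h.prof.cA
    have := h.prof.cx
    unfold Af'
    fun_prop
  · have h1 := (h.A_le hw).trans (i1 w hw)
    rw [div_eq_mul_inv]
    nlinarith [h.A_re hw, norm_nonneg (Af α w), h.prof.A_re hw, inv_pos.2 ha0]
  · have h1 := (h.A_le hw).trans (i1 w hw)
    have h2 : ‖xf w‖ ≤ a⁻¹ / 2 := by rw [h.x_eq hw, mul_inv]; linarith [i1 w hw]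
    have h3 : ‖Af' α w‖ ≤ (2 * ‖Af α w‖ + 4 * ‖xf w‖) * ‖Af α w‖ := by
      rw [Af', show 2 * Af α w ^ 2 - 4 * xf w * Af α w = (2 * Af α w - 4 * xf w) * Af α w by ring,
        norm_mul]
      gcongr
      simpa using norm_sub_le (2 * Af α w) (4 * xf w)
    have h4 : (2 * ‖Af α w‖ + 4 * ‖xf w‖) * ‖Af α w‖ ≤ (4 * a⁻¹) * (2 * (Af α w).re) := by
      gcongr
      · linarith
      · exact h.A_re hw
    rw [div_eq_mul_inv]
    linarith

theorem zz_le (h : NT a b α) (hw : w ∈ Icc a b) : 2 / 3 * w ≤ zz α w ∧ zz α w ≤ 2 * w := by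
  have h0 := h.pos hw
  have h1 := h.v hw
  rw [zz_eq h0.le, le_div_iff₀ (by linarith), div_le_iff₀ (by linarith)]
  constructor <;> nlinarith

end NT

/-- the growing weight, normalised at `b` -/
noncomputable def gw (α : ℂ) (b w : ℝ) : ℝ := zz α w ^ (3 / 8 : ℝ) / zz α b ^ (3 / 8 : ℝ)

theorem gw_pos (h : Prof a b α) (hw : w ∈ Icc a b) : 0 < gw α b w :=
  div_pos (Real.rpow_pos_of_pos (zz_pos h hw) _)
    (Real.rpow_pos_of_pos (zz_pos h (right_mem_Icc.2 (hw.1.trans hw.2))) _)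

theorem gw_self (h : Prof a b α) (hab : a ≤ b) : gw α b b = 1 :=
  div_self (Real.rpow_pos_of_pos (zz_pos h (right_mem_Icc.2 hab)) _).ne'

theorem admO_gw (h : Prof a b α) {t : ℝ} (ht : 0 < t) :
    AdmO a b (Af α) (fun w => t * gw α b w) fun w => 3 / 4 * (Af α w).re * (t * gw α b w) := by
  refine ⟨fun w hw => mul_pos ht (gw_pos h hw), fun w hw => ?_, fun w hw => ?_, fun w hw => ?_⟩
  · refine (((hasDerivAt_zz_rpow h hw _ (3 / 8)).div_const _).const_mul t).congr_deriv ?_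
    unfold gw; ring
  · nlinarith [mul_pos (h.A_re hw) (mul_pos ht (gw_pos h hw))]
  · nlinarith [mul_pos (h.A_re hw) (mul_pos ht (gw_pos h hw))]

theorem NT.gw_le (h : NT a b α) (hw : w ∈ Icc a b) :
    w / (3 * b) ≤ gw α b w ∧ gw α b w ≤ 2 * (w / b) ^ (3 / 8 : ℝ) := by
  have hb := right_mem_Icc.2 h.le
  have w0 := h.pos hw
  have b0 := h.pos hb
  have z1 := zz_pos h.prof hw
  have z2 := zz_pos h.prof hb
  have e1 := h.zz_le hw
  have e2 := h.zz_le hb
  rw [gw, ← Real.div_rpow z1.le z2.le]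
  constructor
  · have h1 : w / (3 * b) ≤ zz α w / zz α b := by
      rw [div_le_div_iff₀ (by positivity) z2]; nlinarith
    refine le_trans ?_ (Real.rpow_le_rpow (by positivity) h1 (by norm_num))
    exact Real.self_le_rpow_of_le_one (by positivity)
      (by rw [div_le_one (by positivity)]; linarith [hw.2]) (by norm_num)
  · have h1 : zz α w / zz α b ≤ 3 * (w / b) := by
      rw [← mul_div_assoc, div_le_div_iff₀ z2 b0]; nlinarith
    refine (Real.rpow_le_rpow (by positivity) h1 (by norm_num)).trans ?_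
    rw [Real.mul_rpow (by norm_num) (by positivity)]
    gcongr
    calc (3 : ℝ) ^ (3 / 8 : ℝ) ≤ 4 ^ (3 / 8 : ℝ) := by gcongr; norm_num
      _ ≤ 4 ^ (1 / 2 : ℝ) := Real.rpow_le_rpow_of_exponent_le (by norm_num) (by norm_num)
      _ = 2 := by rw [← Real.sqrt_eq_rpow, show (4 : ℝ) = 2 ^ 2 by norm_num,
        Real.sqrt_sq (by norm_num)]

theorem NT.layer (h : NT a b α) {g t : ℝ} (hg : 0 ≤ g) (ht : 2 * g / b ≤ t) (hw : w ∈ Icc a b) :
    g * ‖Af α w‖ * Real.exp ((w - b) / 8) ≤ 2 * (t * gw α b w) := by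
  have b0 := h.pos (right_mem_Icc.2 h.le)
  have w0 := h.pos hw
  have h1 : b / w ≤ Real.exp ((b - w) / 16) := by
    have := Real.add_one_le_exp ((b - w) / 16)
    refine le_trans ?_ this
    rw [div_le_iff₀ w0]
    nlinarith [hw.1, hw.2, h.big]
  have h2 : Real.exp ((w - b) / 8) * (b / w) ^ 2 ≤ 1 := by
    calc _ ≤ Real.exp ((w - b) / 8) * Real.exp ((b - w) / 16) ^ 2 := by gcongr
      _ = 1 := by rw [← Real.exp_nat_mul, ← Real.exp_add, ← Real.exp_zero]; congr 1; push_cast; ring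
  have h3 : Real.exp ((w - b) / 8) ≤ (w / b) ^ 2 := by
    rw [div_pow, ← mul_div_assoc, div_le_one (by positivity)] at h2
    rw [div_pow, le_div_iff₀ (by positivity)]
    exact h2
  calc g * ‖Af α w‖ * Real.exp ((w - b) / 8) ≤ g * w⁻¹ * (w / b) ^ 2 := by
        gcongr; exact h.A_le hw
    _ = 3 / 2 * (2 * g / b * (w / (3 * b))) := by field_simp
    _ ≤ 2 * (t * gw α b w) := by
        have h4 : 0 ≤ 2 * g / b := by positivity
        have h5 : 0 ≤ w / (3 * b) := by positivity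
        nlinarith [mul_le_mul ht (h.gw_le hw).1 h5 (h4.trans ht), mul_nonneg h4 h5]

/-- away from the cut the boundary layer is negligible -/
theorem NT.lay_le (h : NT a b α) {g t : ℝ} (hg : 0 ≤ g) (ht : 2 * g / b ≤ t) (hw : w ∈ Icc a b)
    (hwb : 2 * w ≤ b) : lay b g (fun w => t * gw α b w) w ≤ 50 * (t * gw α b w) := by
  have w0 := h.pos hw
  have h1 := h.layer hg ht hw
  have h2 := h.A_ge hw
  have E0 := Real.exp_pos ((w - b) / 8)
  have h3 : w * Real.exp ((w - b) / 8) ≤ 8 := by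
    have e1 : Real.exp ((w - b) / 8) ≤ Real.exp (-(w / 8)) := by gcongr; linarith
    have e2 := Real.add_one_le_exp (w / 8)
    have e3 : Real.exp (-(w / 8)) * Real.exp (w / 8) = 1 := by rw [← Real.exp_add]; simp
    nlinarith [Real.exp_pos (-(w / 8))]
  have h4 : g * Real.exp ((w - b) / 8) ≤ 6 * w * (t * gw α b w) := by
    have : g * (3 * w)⁻¹ * Real.exp ((w - b) / 8) ≤ 2 * (t * gw α b w) :=
      le_trans (by gcongr) h1
    rw [mul_right_comm, ← div_eq_mul_inv, div_le_iff₀ (by positivity)] at this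
    linarith
  have e2 : Real.exp ((w - b) / 4) = Real.exp ((w - b) / 8) * Real.exp ((w - b) / 8) := by
    rw [← Real.exp_add]; congr 1; ring
  have h5 : 0 ≤ t * gw α b w := by nlinarith [mul_nonneg hg E0.le]
  unfold lay
  rw [e2]
  nlinarith [mul_le_mul_of_nonneg_right h4 E0.le, mul_le_mul_of_nonneg_right h3 h5]

theorem NT.lay_le' (h : NT a b α) {g t : ℝ} (hg : 0 ≤ g) (ht : 2 * g / b ≤ t) (hw : w ∈ Icc a b)
    (hwb : 4 * w ≤ b) : lay b g (fun w => t * gw α b w) w ≤ 2 * (t * gw α b w) := by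
  have w0 := h.pos hw
  have h1 := h.layer hg ht hw
  have h2 := h.A_ge hw
  have E0 := Real.exp_pos ((w - b) / 8)
  have h3 : 6 * w * Real.exp ((w - b) / 8) ≤ 1 := by
    have e2 := Real.add_one_le_exp (w / 8)
    have e4 : 9 ≤ Real.exp (w / 8) := by linarith [h.big, hw.1]
    have e1 : Real.exp ((w - b) / 8) * (Real.exp (w / 8) * (Real.exp (w / 8) * Real.exp (w / 8)))
        ≤ 1 := by
      simp only [← Real.exp_add]
      exact Real.exp_le_one_iff.2 (by linarith)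
    have e5 : 6 * w ≤ Real.exp (w / 8) * (Real.exp (w / 8) * Real.exp (w / 8)) := by
      nlinarith [mul_le_mul e4 e4 (by norm_num) (by linarith)]
    nlinarith
  have h4 : g * Real.exp ((w - b) / 8) ≤ 6 * w * (t * gw α b w) := by
    have : g * (3 * w)⁻¹ * Real.exp ((w - b) / 8) ≤ 2 * (t * gw α b w) :=
      le_trans (by gcongr) h1
    rw [mul_right_comm, ← div_eq_mul_inv, div_le_iff₀ (by positivity)] at this
    linarith
  have e2 : Real.exp ((w - b) / 4) = Real.exp ((w - b) / 8) * Real.exp ((w - b) / 8) := by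
    rw [← Real.exp_add]; congr 1; ring
  have h5 : 0 ≤ t * gw α b w := by nlinarith [mul_nonneg hg E0.le]
  unfold lay
  rw [e2]
  nlinarith [mul_le_mul_of_nonneg_right h4 E0.le, mul_le_mul_of_nonneg_right h3 h5]

theorem NT.gw_two (h : NT a b α) {u : ℝ} (hu : u ∈ Icc a b) (hw : w ∈ Icc a b) (huw : w ≤ 2 * u) :
    gw α b w ≤ 2 * gw α b u := by
  have z1 := zz_pos h.prof hw
  have z2 := zz_pos h.prof hu
  have z3 := zz_pos h.prof (right_mem_Icc.2 h.le)
  have h1 : zz α w ≤ 6 * zz α u := by linarith [(h.zz_le hw).2, (h.zz_le hu).1]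
  have h2 : (6 : ℝ) ^ (3 / 8 : ℝ) ≤ 2 := by
    refine le_of_pow_le_pow_left₀ (n := 8) (by norm_num) (by norm_num) ?_
    rw [← Real.rpow_natCast, ← Real.rpow_mul (by norm_num)]
    norm_num
  rw [gw, gw, ← mul_div_assoc]
  gcongr
  calc zz α w ^ (3 / 8 : ℝ) ≤ (6 * zz α u) ^ (3 / 8 : ℝ) := by gcongr
    _ ≤ _ := by rw [Real.mul_rpow (by norm_num) z2.le]; gcongr

end Vale.Agent.P218E2
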