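import Vale.Agent.P218EN.Ex

/-! Second order remainder at the rotationally symmetric part; bootstrap tools. -/

namespace Vale.Agent.P218E2
open Set Complex Vale.Agent.P218EN Vale.Agent.P218EN.WA Vale.Agent.P218EN.Ex

section tools
variable {S : Set ℝ} {a b : ℝ → ℝ} {x : WA} {B : ℝ}

/-- the weighted bounds are closed conditions -/
theorem bd_of_forall_pos (h : ∀ η, 0 < η → Bd S a b x (B + η)) : Bd S a b x B := by
  set T : ℤ → Set ℝ := fun k => {c | 0 ≤ c ∧ ∀ w ∈ S, ‖x.co k w‖ ≤ c * wt a b k w} with hT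
  have hcl : ∀ k, IsClosed (T k) := fun k => by
    have : T k = Ici 0 ∩ ⋂ w ∈ S, {c | ‖x.co k w‖ ≤ c * wt a b k w} := by
      ext c; simp [hT]
    rw [this]
    exact isClosed_Ici.inter (isClosed_biInter fun w _ =>
      isClosed_le continuous_const (continuous_id.mul continuous_const))
  have hbd : ∀ k, BddBelow (T k) := fun k => ⟨0, fun c hc => hc.1⟩
  obtain ⟨c1, h0, h1, -, h3⟩ := h 1 one_pos
  have hm : ∀ k, sInf (T k) ∈ T k := fun k => (hcl k).csInf_mem ⟨c1 k, h0 k, h3 k⟩ (hbd k)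
  have hs : Summable fun k => sInf (T k) := Summable.of_nonneg_of_le (fun k => (hm k).1)
    (fun k => csInf_le (hbd k) ⟨h0 k, h3 k⟩) h1
  refine ⟨fun k => sInf (T k), fun k => (hm k).1, hs, le_of_forall_pos_le_add fun η hη => ?_,
    fun k => (hm k).2⟩
  obtain ⟨c, g0, g1, g2, g3⟩ := h η hη
  exact (hs.tsum_le_tsum (fun k => csInf_le (hbd k) ⟨g0 k, g3 k⟩) g1).trans g2

theorem bd_of_low (x : WA) {m : ℝ} (hm : 0 < m) (ha : ∀ w ∈ S, m ≤ a w) (hb : ∀ w ∈ S, m ≤ b w) :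
    Bd S a b x (m⁻¹ * ‖x‖) :=
  (Bd.of_norm S x).weaken (inv_pos.2 hm).le
    (fun w hw => by rw [Pi.one_apply, le_inv_mul_iff₀ hm, mul_one]; exact ha w hw)
    fun w hw => by rw [Pi.one_apply, le_inv_mul_iff₀ hm, mul_one]; exact hb w hw

/-- bootstrap: a finite bound that improves is explicit -/
theorem boot {P : ℝ → Prop} {B0 C : ℝ} (hmono : ∀ B B', P B → B ≤ B' → P B') (h0 : P B0)
    (h : ∀ B, P B → P (B / 2 + C)) {η : ℝ} (hη : 0 < η) : P (2 * C + η) := by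
  have key : ∀ n : ℕ, P (|B0 - 2 * C| * (1 / 2) ^ n + 2 * C) := fun n => by
    induction n with
    | zero => exact hmono _ _ h0 (by linarith [le_abs_self (B0 - 2 * C)])
    | succ n ih => exact hmono _ _ (h _ ih) (le_of_eq (by ring))
  have ht := (tendsto_pow_atTop_nhds_zero_of_lt_one (r := (1 / 2 : ℝ)) (by norm_num)
    (by norm_num)).const_mul |B0 - 2 * C|
  rw [mul_zero] at ht
  obtain ⟨n, hn⟩ := (ht.eventually (gt_mem_nhds hη)).exists
  exact hmono _ _ (key n) (by linarith)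

/-- bootstrap for families of weighted bounds -/
theorem boot_bd {ι : Type*} [Finite ι] {D : ι → WA} {m C : ℝ} (hm : 0 < m)
    (ha : ∀ w ∈ S, m ≤ a w) (hb : ∀ w ∈ S, m ≤ b w)
    (h : ∀ B, (∀ i, Bd S a b (D i) B) → ∀ i, Bd S a b (D i) (B / 2 + C)) (i : ι) :
    Bd S a b (D i) (2 * C) := by
  obtain ⟨M, hM⟩ := (Set.finite_range fun i => m⁻¹ * ‖D i‖).bddAbove
  exact bd_of_forall_pos fun η hη => boot (P := fun B => ∀ i, Bd S a b (D i) B) (B0 := M)
    (fun _ _ h hB i => (h i).mono hB)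
    (fun i => (bd_of_low (D i) hm ha hb).mono (hM ⟨i, rfl⟩)) h hη i

/-- a single mode -/
theorem bd_single {k : ℤ} {c : CB} {t : ℝ} (ht : 0 ≤ t)
    (h : ∀ w ∈ S, ‖c w‖ ≤ t * wt a b k w) : Bd S a b (single k c) t := by
  refine ⟨Pi.single k t, fun j => ?_, (hasSum_pi_single k t).summable,
    (hasSum_pi_single k t).tsum_eq.le, fun j w hw => ?_⟩
  · rw [Pi.single_apply]; split_ifs <;> simp [ht]
  · by_cases hj : j = k
    · simpa [hj, co_single] using h w hw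
    · simp [hj, co_single]

end tools

/-- the rotationally symmetric part -/
noncomputable def m0 (x : WA) : WA := sc (x.co 0)

theorem co_m0 (x : WA) (k : ℤ) : (m0 x).co k = if k = 0 then x.co 0 else 0 := co_sc _ k

section
variable {n : ℕ} {S : Set ℝ} {a b : ℝ → ℝ} {x : WA} {B : ℝ}

theorem bd_m0 (h : Bd S a b x B) (b' : ℝ → ℝ) : Bd S a b' (m0 x) B := by
  obtain ⟨c, h0, h1, h2, h3⟩ := h
  exact (Bd.sc (h0 0) (by simpa using h3 0)).mono ((h1.le_tsum 0 fun j _ => h0 j).trans h2)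

theorem bd_sub_m0 (h : Bd S a b x B) {a' : ℝ → ℝ} (ha : ∀ w ∈ S, 0 ≤ a' w) :
    Bd S a' b (x - m0 x) B := by
  simpa using h.of_le (y := x - m0 x) (a' := a') (b' := b) zero_le_one fun k w hw c hc hx => by
    by_cases hk : k = 0
    · have := ha w hw
      simp [hk, co_m0]; positivity
    · simpa [co_m0, hk, wt_ne _ _ hk] using hx

theorem ev_sc_eq (c : Fin n → CB) (e : Ex n) : ev (fun i => sc (c i)) e = sc (ev c e) := by
  induction e with
  | v i => rfl
  | c k =>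
    refine ev_inj fun w θ => ?_
    rw [ev_sc, ← evA_apply]
    simp only [Ex.ev, map_intCast]
    simp
  | add a b ha hb => exact ev_inj fun w θ => by simp only [Ex.ev, ha, hb, WA.ev_add, ev_sc]; rfl
  | mul a b ha hb => exact ev_inj fun w θ => by simp only [Ex.ev, ha, hb, WA.ev_mul, ev_sc]; rfl
  | neg a ha =>
    refine ev_inj fun w θ => ?_
    simp only [Ex.ev, ha]
    rw [← evA_apply, map_neg, evA_apply, ev_sc, ev_sc]; rfl

theorem ev_apply (c : Fin n → CB) (e : Ex n) (w : ℝ) : ev c e w = ev (fun i => c i w) e := by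
  induction e with
  | v i => rfl
  | c k => simp [Ex.ev]
  | add a b ha hb => simp only [Ex.ev, ← ha, ← hb]; rfl
  | mul a b ha hb => simp only [Ex.ev, ← ha, ← hb]; rfl
  | neg a ha => simp only [Ex.ev, ← ha]; rfl

theorem co_dv_sc (c c' : Fin n → CB) (Z : Fin n → WA) (e : Ex n) (k : ℤ) (w : ℝ) :
    (dv (fun i => sc (c i)) (fun i => sc (c' i)) Z e).co k w =
      dv (fun i => c i w) (fun i => c' i w) (fun i => (Z i).co k w) e := by
  induction e with
  | v i => rfl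
  | c k => rfl
  | add a b ha hb => simp only [dv, ← ha, ← hb]; rfl
  | mul a b ha hb =>
    simp only [dv, ← ha, ← hb, ev_sc_eq, co_add, BoundedContinuousFunction.add_apply]
    rw [mul_comm _ (sc _), co_sc_mul, co_sc_mul, ev_apply, ev_apply]; ring
  | neg a ha => simp only [dv, ← ha]; rfl

theorem dv_zero {R : Type*} [CommRing R] (J J' : Fin n → R) (e : Ex n) : dv J J' 0 e = 0 := by
  induction e with
  | v i => rfl
  | c k => rfl
  | add a b ha hb => simp [dv, ha, hb]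
  | mul a b ha hb => simp [dv, ha, hb]
  | neg a ha => simp [dv, ha]

/-- constant in the second order remainder -/
def bd2 : Ex n → ℕ
  | .v _ => 0
  | .c _ => 0
  | .add a b => bd2 a + bd2 b
  | .mul a b => a.bd' * b.bd' + a.bd * bd2 b + bd2 a * b.bd
  | .neg a => bd2 a

variable {ω : ℝ → ℝ} {J : Fin n → WA}

theorem wsys_one (h0 : ∀ w ∈ S, 0 ≤ ω w) (h1 : ∀ w ∈ S, ω w ≤ 1) {σ' : ℝ → ℝ}
    (h2 : ∀ w ∈ S, ω w ≤ σ' w) (h3 : ∀ w ∈ S, σ' w ≤ 1) : WSys S 1 1 1 ω σ' ω :=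
  ⟨zero_le_one, le_rfl, fun _ _ => zero_le_one, fun _ _ => le_rfl, fun _ _ => zero_le_one, h0,
    fun w hw => (h0 w hw).trans (h2 w hw), h0, fun _ _ => by simp, fun w hw => by simpa using h1 w hw,
    fun w hw => by nlinarith [h0 w hw, h1 w hw, h2 w hw],
    fun w hw => by simp only [Pi.one_apply]; nlinarith [h0 w hw, h3 w hw]⟩

/-- **(R2)** the second order remainder at the mode zero part is `O(ω ^ 2)` in all modes -/
theorem rem2 (h0 : ∀ w ∈ S, 0 ≤ ω w) (h1 : ∀ w ∈ S, ω w ≤ 1) (hJ : ∀ i, Bd S 1 ω (J i) 1)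
    (e : Ex n) : Bd S (fun w => ω w ^ 2) (fun w => ω w ^ 2)
      (ev J e - ev (fun i => m0 (J i)) e -
        dv (fun i => m0 (J i)) (fun i => m0 (J i)) (J - fun i => m0 (J i)) e) (bd2 e) := by
  set J0 : Fin n → WA := fun i => m0 (J i) with hJ0
  have H0 : WSys S 1 1 1 ω 1 ω := wsys_one h0 h1 h1 fun _ _ => le_rfl
  have H : WSys S 1 1 1 ω ω ω := wsys_one h0 h1 (fun _ _ => le_rfl) h1
  have k0 : ∀ i, Kc S 1 1 1 ω ((fun _ => 0 : Fin n → ℕ) i) (J0 i) 1 := fun i => bd_m0 (hJ i) ω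
  have v0 : ∀ e : Ex n, Bd S 1 ω (ev J0 e) e.bd := fun e => H0.Kdown (Nat.zero_le _) (H0.ev k0 e)
  have v1 : ∀ e : Ex n, Bd S ω ω (ev J e - ev J0 e) e.bd' := fun e => by
    rw [ev_sub_ev]
    have := H.Mdown (Nat.zero_le _) (H0.dv H (g := fun _ => 0) (J := J) (J' := J0) (Z := J - J0)
      (B := 1) hJ k0 (fun i => bd_sub_m0 (hJ i) h0) e)
    rw [mul_one] at this
    exact this
  have sq_eq : ∀ w, ω w * ω w = ω w ^ 2 := fun w => (pow_two _).symm
  have sq : ∀ w ∈ S, ω w * ω w ^ 2 ≤ ω w ^ 2 := fun w hw =>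
    mul_le_of_le_one_left (sq_nonneg _) (h1 w hw)
  induction e with
  | v i => simpa [Ex.ev, dv, bd2] using Bd.zero _ _ _
  | c k => simpa [Ex.ev, dv, bd2] using Bd.zero _ _ _
  | add a b ha hb =>
    simp only [bd2, Nat.cast_add]
    convert ha.add hb using 1
    simp only [Ex.ev, dv]; ring
  | mul a b ha hb =>
    have t1 : Bd S (fun w => ω w ^ 2) (fun w => ω w ^ 2) _ _ := (v1 a).mul (v1 b)
      (fun w _ => (sq_eq w).le) (fun w _ => (sq_eq w).le) (fun w _ => (sq_eq w).le)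
      (fun w _ => (sq_eq w).le) fun w _ => (sq_eq w).le
    have t2 : ∀ (e : Ex n) {y : WA} {B : ℝ}, Bd S (fun w => ω w ^ 2) (fun w => ω w ^ 2) y B →
        Bd S (fun w => ω w ^ 2) (fun w => ω w ^ 2) (ev J0 e * y) (e.bd * B) := fun e y B hy =>
      (v0 e).mul hy (fun w _ => by simp) sq (fun w _ => by simp) sq sq
    have := (t1.add (t2 a hb)).add (t2 b ha)
    simp only [bd2, Nat.cast_add, Nat.cast_mul]
    convert this using 1
    · simp only [Ex.ev, dv]; ring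
    · ring
  | neg a ha =>
    simp only [bd2]
    convert ha.neg using 1
    simp only [Ex.ev, dv]; ring

/-- **(R)** radial reduction of the mode zero -/
theorem co_zero_ev (h0 : ∀ w ∈ S, 0 ≤ ω w) (h1 : ∀ w ∈ S, ω w ≤ 1) (hJ : ∀ i, Bd S 1 ω (J i) 1)
    (e : Ex n) {w : ℝ} (hw : w ∈ S) :
    ‖(ev J e).co 0 w - ev (fun i => (J i).co 0 w) e‖ ≤ bd2 e * ω w ^ 2 := by
  have := (rem2 h0 h1 hJ e).co_le 0 hw (by simp only [wt_zero]; positivity)
  simp only [m0, co_sub, BoundedContinuousFunction.sub_apply, co_dv_sc, ev_sc_eq, co_sc, if_true,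
    Pi.sub_apply, sub_self, ev_apply, wt_zero] at this
  rwa [show (fun _ : Fin n => (0 : CB) w) = 0 from rfl, dv_zero, sub_zero] at this

/-- the other modes see the linearisation at the mode zero part -/
theorem co_ne_ev (h0 : ∀ w ∈ S, 0 ≤ ω w) (h1 : ∀ w ∈ S, ω w ≤ 1) (hJ : ∀ i, Bd S 1 ω (J i) 1)
    (e : Ex n) {k : ℤ} (hk : k ≠ 0) {w : ℝ} (hw : w ∈ S) :
    ‖(ev J e).co k w - dv (fun i => (J i).co 0 w) (fun i => (J i).co 0 w)
      (fun i => (J i).co k w) e‖ ≤ bd2 e * ω w ^ 2 := by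
  have := (rem2 h0 h1 hJ e).co_le k hw (by rw [wt_ne _ _ hk]; positivity)
  simpa only [m0, co_sub, BoundedContinuousFunction.sub_apply, co_dv_sc, ev_sc_eq, co_sc, hk,
    if_false, Pi.sub_apply, BoundedContinuousFunction.coe_zero, Pi.zero_apply, sub_zero,
    wt_ne _ _ hk] using this

/-- the mode `k` of an expression of order two is small relative to the mode `k` of the jets,
up to `O(ω ^ 2)` -/
theorem co_ev_le {ε : ℝ} {d σ : ℝ → ℝ} (H : WSys S ε d σ ω σ ω) {g : Fin n → ℕ}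
    (hJ : ∀ i, Kc S ε d σ ω (g i) (J i) 1) {k : ℤ} (hk : k ≠ 0) {w : ℝ} (hw : w ∈ S) {t : ℝ}
    (ht : 0 ≤ t) (hZ : ∀ i, ‖(J i).co k w‖ ≤ t) (hZ' : ∀ i, 2 ≤ g i → (J i).co k w = 0)
    {e : Ex n} (he : 2 ≤ e.gr g) :
    ‖(ev J e).co k w‖ ≤ e.bd' * (ε * d w) * t + bd2 e * ω w ^ 2 := by
  have h1 : ∀ w ∈ S, ω w ≤ 1 := fun w hw => (H.od w hw).trans (H.ed hw)
  have key := co_ne_ev H.o0 h1 (fun i => H.Kdown (Nat.zero_le _) (hJ i)) e hk hw
  have hs : ({w} : Set ℝ) ⊆ S := singleton_subset_iff.2 hw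
  have ed := mul_nonneg H.e0 (H.d0 w hw)
  have W : ∀ σ' ω' : ℝ → ℝ, 0 ≤ σ' w → 0 ≤ ω' w → WSys {w} ε d σ 0 σ' ω' := fun σ' ω' h h' =>
    ⟨H.e0, H.e1, fun u hu => H.d0 u (hs hu), fun u hu => H.d1 u (hs hu),
      fun u hu => H.s0 u (hs hu), fun _ _ => le_rfl, by simpa using h, by simpa using h',
      fun u hu => H.sd u (hs hu), by simpa using ed, by simpa using mul_nonneg H.e0 h,
      by simpa using mul_nonneg ed h'⟩
  have k0 : ∀ i, Kc {w} ε d σ 0 (g i) (sc ((J i).co 0)) 1 := fun i => by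
    have := hJ i
    rcases hg : g i with _ | _ | j <;> rw [hg] at this <;> exact bd_m0 (Bd.subset this hs) _
  have z0 : ∀ i, Mc {w} ε d 1 1 (g i) (single k ((J i).co k)) t := fun i => by
    rcases hg : g i with _ | _ | j
    · exact bd_single ht (by simpa [wt_ne _ _ hk] using hZ i)
    · exact bd_single ht (by simpa [wt_ne _ _ hk] using hZ i)
    · refine bd_single ht ?_
      simp only [mem_singleton_iff, forall_eq, hZ' i (by omega), wt_ne _ _ hk, norm_zero,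
        Pi.one_apply]
      positivity
  have H1 := W 1 1 zero_le_one zero_le_one
  have h2 : Bd {w} (fun w => ε * (1 : ℝ → ℝ) w) (fun w => ε * d w * (1 : ℝ → ℝ) w) _ _ :=
    H1.Mdown he ((W σ 0 (H.s0 w hw) le_rfl).dv H1 k0 k0 z0 e)
  have h3 := h2.co_le k (mem_singleton w) (by simpa [wt_ne _ _ hk] using ed)
  simp only [co_dv_sc, co_single, if_true, wt_ne _ _ hk, Pi.one_apply, mul_one] at h3
  calc _ ≤ _ := norm_le_norm_add_norm_sub' _ _
    _ ≤ _ := add_le_add (h3.trans_eq (by ring)) key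

/-- pointwise form: the symmetric parts of the small variables are bounded by `δ` -/
theorem co_ev_le' {g : Fin n → ℕ} {w δ t : ℝ} (h0 : 0 ≤ ω w) (h1 : ω w ≤ 1) (δ0 : 0 ≤ δ)
    (δ1 : δ ≤ 1) (hJ : ∀ i, Bd {w} 1 ω (J i) 1) (hδ : ∀ i, 1 ≤ g i → ‖(J i).co 0 w‖ ≤ δ) {k : ℤ}
    (hk : k ≠ 0) (ht : 0 ≤ t) (hZ : ∀ i, ‖(J i).co k w‖ ≤ t)
    (hZ' : ∀ i, 2 ≤ g i → (J i).co k w = 0) {e : Ex n} (he : 2 ≤ e.gr g) :
    ‖(ev J e).co k w‖ ≤ e.bd' * δ * t + bd2 e * ω w ^ 2 := by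
  have key := co_ne_ev (S := {w}) (by simpa using h0) (by simpa using h1) hJ e hk (mem_singleton w)
  have W : ∀ σ' ω' : ℝ → ℝ, 0 ≤ σ' w → 0 ≤ ω' w →
      WSys {w} 1 (fun _ => δ) (fun _ => δ) 0 σ' ω' := fun σ' ω' h h' =>
    ⟨zero_le_one, le_rfl, fun _ _ => δ0, fun _ _ => δ1, fun _ _ => δ0, fun _ _ => le_rfl,
      by simpa using h, by simpa using h', by simp, by simpa using δ0, by simpa using h,
      by simpa using mul_nonneg δ0 h'⟩
  have k0 : ∀ i, Kc {w} 1 (fun _ => δ) (fun _ => δ) 0 (g i) (sc ((J i).co 0)) 1 := fun i => by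
    rcases hg : g i with _ | _ | j
    · exact bd_m0 (hJ i) _
    · exact Bd.sc zero_le_one (by simpa using hδ i (by omega))
    · exact Bd.sc zero_le_one (by simpa using hδ i (by omega))
  have z0 : ∀ i, Mc {w} 1 (fun _ => δ) 1 1 (g i) (single k ((J i).co k)) t := fun i => by
    rcases hg : g i with _ | _ | j
    · exact bd_single ht (by simpa [wt_ne _ _ hk] using hZ i)
    · exact bd_single ht (by simpa [wt_ne _ _ hk] using hZ i)
    · refine bd_single ht ?_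
      simp only [mem_singleton_iff, forall_eq, hZ' i (by omega), wt_ne _ _ hk, norm_zero,
        Pi.one_apply]
      positivity
  have H1 := W 1 1 zero_le_one zero_le_one
  have h2 : Bd {w} (fun w => 1 * (1 : ℝ → ℝ) w) (fun w => 1 * δ * (1 : ℝ → ℝ) w) _ _ :=
    H1.Mdown he ((W _ 0 δ0 le_rfl).dv H1 k0 k0 z0 e)
  have h3 := h2.co_le k (mem_singleton w) (by simpa [wt_ne _ _ hk] using δ0)
  simp only [co_dv_sc, co_single, if_true, wt_ne _ _ hk, Pi.one_apply, mul_one] at h3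
  calc _ ≤ _ := norm_le_norm_add_norm_sub' _ _
    _ ≤ _ := add_le_add (h3.trans_eq (by ring)) key

end

end Vale.Agent.P218E2
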