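import Vale.Agent.P218PB.Lip
import Vale.Agent.P218E2.R2
import Vale.Agent.P218E2.Layer

/-! The modes `±1` of a solution are of second order. -/

namespace Vale.Agent.P218E2
open Set Complex Vale.Agent.P218EN Vale.Agent.P218EN.WA Vale.Agent.P218EN.Ex

theorem bb_eq (b : ℝ) (α : ℂ) (J : Fin 6 → WA) : BB b α J =
    exD.ev (vD (ef α b) (L2 (Af α b) (ef α b) (amean b α (J 0)) - 1) J) -
      (2 : ℂ) • (J 3 - J 0) := by
  rw [ev_exD, BB, two_smul]
  simp only [vD, Matrix.cons_val_zero, Matrix.cons_val_one, Matrix.cons_val]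
  ring

theorem co_algebraMap (c : ℂ) {k : ℤ} (hk : k ≠ 0) (w : ℝ) : (algebraMap ℂ WA c).co k w = 0 := by
  simp [Algebra.algebraMap_eq_smul_one, co_one, hk]

theorem wsys_subset {S S' : Set ℝ} {ε : ℝ} {d σ ω σ' ω' : ℝ → ℝ} (H : WSys S ε d σ ω σ' ω')
    (h : S' ⊆ S) : WSys S' ε d σ ω σ' ω' :=
  ⟨H.e0, H.e1, fun w hw => H.d0 w (h hw), fun w hw => H.d1 w (h hw), fun w hw => H.s0 w (h hw),
    fun w hw => H.o0 w (h hw), fun w hw => H.s0' w (h hw), fun w hw => H.o0' w (h hw),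
    fun w hw => H.sd w (h hw), fun w hw => H.od w (h hw), fun w hw => H.oo w (h hw),
    fun w hw => H.os w (h hw)⟩

theorem exists_low {a b : ℝ} (hab : a ≤ b) {ψ : ℝ → ℝ} (hc : ContinuousOn ψ (Icc a b))
    (h : ∀ w ∈ Icc a b, 0 < ψ w) : ∃ m, 0 < m ∧ ∀ w ∈ Icc a b, m ≤ ψ w := by
  obtain ⟨u, hu, hm⟩ := isCompact_Icc.exists_isMinOn (nonempty_Icc.2 hab) hc
  exact ⟨ψ u, h u hu, fun w hw => hm hw⟩

theorem co_NN_le {S : Set ℝ} {a b ε : ℝ} {α : ℂ} {d σ ω : ℝ → ℝ} {J : Fin 6 → WA}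
    (H : WSys S ε d σ ω σ ω) (hV : ∀ i, Kc S ε d σ ω (gN i) (vN a b α J i) 1) {k : ℤ}
    (hk : k ≠ 0) {w : ℝ} (hw : w ∈ S) {t : ℝ} (hZ : ∀ i, ‖(J i).co k w‖ ≤ t) :
    ‖(NN a b α J).co k w‖ ≤ exN.bd' * (ε * d w) * t + bd2 exN * ω w ^ 2 := by
  have ht : 0 ≤ t := (norm_nonneg _).trans (hZ 0)
  have z : ∀ c : CB, (sc c).co k w = 0 := fun c => by simp [co_sc, hk]
  refine co_ev_le H hV hk hw ht (fun i => ?_) (fun i hi => ?_) gr_exN.ge
  · fin_cases i
    exacts [hZ 0, hZ 1, hZ 2, hZ 3, hZ 4, hZ 5, (congrArg _ (z _)).trans_le (by simpa using ht),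
      (congrArg _ (z _)).trans_le (by simpa using ht),
      (congrArg _ (z _)).trans_le (by simpa using ht),
      (congrArg _ (z _)).trans_le (by simpa using ht)]
  · fin_cases i <;> first | exact z _ | exact absurd hi (by decide)

theorem bd_alg (S : Set ℝ) (ω : ℝ → ℝ) {c : ℂ} {σ : ℝ → ℝ} {t : ℝ} (ht : 0 ≤ t)
    (h : ∀ w ∈ S, ‖c‖ ≤ t * σ w) : Bd S σ ω (algebraMap ℂ WA c) t :=
  Bd.of_mode0 ht (by simpa [Algebra.algebraMap_eq_smul_one, co_one] using h)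
    fun k hk w _ => co_algebraMap c hk w

theorem amean_sub_le {b δ : ℝ} {α : ℂ} {η : WA} (hδ : δ ≤ 1 / 100) (h : ∀ θ, ‖η.ev b θ‖ ≤ δ)
    (he : ‖ef α b‖ ≤ δ) : ‖amean b α η - 1‖ ≤ 4 * δ := by
  have c : Continuous fun θ => η.ev b θ :=
    η.continuous_ev.comp (continuous_const.prodMk continuous_id)
  have k := fun θ => P218PB.cl_area (h := η.ev b θ) (h' := 0) (ε := ef α b) (ε' := 0) (B := δ)
    ⟨(h θ).trans hδ, by simp, by simpa using h θ⟩ ⟨he.trans hδ, by simp, by simpa using he⟩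
  have c1 : Continuous fun θ => (1 + η.ev b θ) ^ 2 / (1 + ef α b * (1 + η.ev b θ) ^ 2) :=
    ((continuous_const.add c).pow 2).div (continuous_const.add (continuous_const.mul
      ((continuous_const.add c).pow 2))) fun θ => (k θ).1
  have := P218PB.mean_sub c1 (continuous_const (y := 1))
  rw [P218PB.mean_one] at this
  rw [amean, this]
  exact P218PB.norm_mean_le fun θ => by simpa using (k θ).2.2

theorem L2_sub_le {A e m : ℂ} {δ : ℝ} (hδ : δ ≤ 1 / 1000) (hA : ‖A‖ ≤ δ) (he : ‖e‖ ≤ δ)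
    (hm : ‖m - 1‖ ≤ 4 * δ) : ‖L2 A e m - 1‖ ≤ 80 * δ := by
  have δ0 := (norm_nonneg _).trans hA
  have := (P218PB.cl_L2 (A := A) (A' := 0) (ε := e) (ε' := 0) (m := m) (m' := 1) (B := 4 * δ)
    ⟨hA.trans hδ, by simp, by rw [sub_zero]; linarith⟩
    ⟨by linarith, by simp, by rw [sub_zero]; linarith⟩ (by linarith) (by simp) hm).2.2
  rw [show L2 0 0 1 = 1 by simp [L2]] at this
  linarith

theorem co_exD_le {b δ t : ℝ} {α : ℂ} {σ ω : ℝ → ℝ} {J : Fin 6 → WA} (hδ : δ ≤ 1 / 1000)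
    (s0 : 0 ≤ σ b) (s1 : σ b ≤ δ) (o0 : 0 ≤ ω b) (o1 : ω b ≤ δ) (hA : ‖Af α b‖ ≤ δ)
    (he : ‖ef α b‖ ≤ δ) (hJ : ∀ i, Bd {b} σ ω (J i) 1) {k : ℤ} (hk : k ≠ 0)
    (hZ : ∀ i, ‖(J i).co k b‖ ≤ t) :
    ‖(exD.ev (vD (ef α b) (L2 (Af α b) (ef α b) (amean b α (J 0)) - 1) J)).co k b‖ ≤
      exD.bd' * (80 * δ) * t + bd2 exD * ω b ^ 2 := by
  have ht : 0 ≤ t := (norm_nonneg _).trans (hZ 0)
  have δ0 := s0.trans s1
  have z := fun c => co_algebraMap c hk b
  have hl := L2_sub_le hδ hA he (amean_sub_le (by linarith) (fun θ => by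
    simpa using (hJ 0).ev_le (mem_singleton b) δ0 s1 o1 θ) he)
  have u : ∀ i, Bd {b} 1 ω (J i) 1 := fun i =>
    (hJ i).weaken' (by simpa using s1.trans (by linarith)) fun _ _ => le_rfl
  have u0 : ∀ i, ‖(J i).co 0 b‖ ≤ 80 * δ := fun i => by
    have := (hJ i).co_le 0 (mem_singleton b) (by simpa using s0)
    rw [wt_zero] at this
    linarith
  have a0 : ∀ c : ℂ, (algebraMap ℂ WA c).co 0 b = c := fun c => by
    simp [Algebra.algebraMap_eq_smul_one, co_one]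
  refine co_ev_le' (g := gD) o0 (by linarith) (by linarith) (by linarith) (fun i => ?_)
    (fun i _ => ?_) hk ht (fun i => ?_) (fun i hi => ?_) gr_exD.ge
  · fin_cases i
    exacts [u 0, u 1, u 3, bd_alg _ _ zero_le_one (by simpa using he.trans (by linarith)),
      bd_alg _ _ zero_le_one (by simpa using hl.trans (by linarith))]
  · fin_cases i
    exacts [u0 0, u0 1, u0 3, (congrArg _ (a0 _)).trans_le (by linarith),
      (congrArg _ (a0 _)).trans_le hl]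
  · fin_cases i
    exacts [hZ 0, hZ 1, hZ 3, (congrArg _ (z _)).trans_le (by simpa using ht),
      (congrArg _ (z _)).trans_le (by simpa using ht)]
  · fin_cases i <;> first | exact z _ | exact absurd hi (by decide)

theorem bd'_exN : exN.bd' = 103755 := by decide
theorem bd'_exD : exD.bd' = 1297 := by decide

/-- the constant in `e3` -/
noncomputable def C3 : ℝ := 30000000 * (1 + bd2 exN + bd2 exD)

/-- **(E3)** backward estimate for the modes `±1` on `[a', b]`, in any weight `ψ` with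
`ω ^ 2 ≤ δ ψ` which grows slower than the Jacobi field -/
theorem e3 {a a' b ε Bf Bξ Bγ : ℝ} {α : ℂ} {J : Fin 6 → WA} {f ξ γ : WA} {A' : ℝ → ℂ}
    {σ ω ψ ψ' : ℝ → ℝ} {k : ℤ} (hS : Sol a b α J f ξ γ) (haa : a ≤ a')
    (H : Coef a' b (Af α) A' ε) (Wy : WSys (Icc a' b) ε (dl (Af α)) σ ω σ ω)
    (hε' : 10000000 * 3000000 * ε ≤ 1)
    (hV : ∀ i, Kc (Icc a' b) ε (dl (Af α)) σ ω (gN i) (vN a b α J i) 1)
    (he : ‖ef α b‖ ≤ ε * dl (Af α) b)
    (O : AdmU a' b (Af α) ψ ψ') (hω : ∀ w ∈ Icc a' b, ω w ^ 2 ≤ dl (Af α) w * ψ w)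
    (hk : k = 1 ∨ k = -1) (f0 : 0 ≤ Bf) (ξ0 : 0 ≤ Bξ) (γ0 : 0 ≤ Bγ)
    (hf : ∀ w ∈ Icc a' b, ‖f.co k w‖ ≤ Bf * (dl (Af α) w * ψ w))
    (hξ : ‖ξ.co k b‖ ≤ Bξ * ψ b) (hγ : ‖γ.co k b‖ ≤ Bγ * ψ b) (i : Fin 6) :
    ∀ w ∈ Icc a' b, ‖(J i).co k w‖ ≤ C3 * (1 + Bf + Bξ + Bγ) * ψ w := by
  have hs : (-2 : ℝ) = -2 ∨ (-2 : ℝ) = 2 := Or.inl rfl
  have hb : b ∈ Icc a' b := right_mem_Icc.2 H.le
  have sub : Icc a' b ⊆ Icc a b := Icc_subset_Icc_left haa
  have k0 : k ≠ 0 := by omega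
  have κ1 : kp (-2) k = -1 := by rcases hk with rfl | rfl <;> norm_num [kp]
  have κm : max 1 (kp (-2) k) = 1 := by rw [κ1]; norm_num
  have k2 : (k : ℝ) ^ 2 = 1 := by rcases hk with rfl | rfl <;> norm_num
  have hJ := hS.jet.mono sub
  have hL : WEq (Icc a' b) (Lm (-2) J) (f - NN a b α J) := fun j w hw => by
    rw [co_sub, BoundedContinuousFunction.sub_apply, ← hS.eq j w (sub hw), EE, co_add,
      BoundedContinuousFunction.add_apply, add_sub_cancel_right]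
  have hM := hJ.mEq H hL k
  obtain ⟨m, hm, hl⟩ := exists_low H.le (fun w hw => (O.hd w hw).continuousWithinAt) O.pos
  obtain ⟨M, hM'⟩ := (Set.finite_range fun i => m⁻¹ * ‖J i‖).bddAbove
  have e0 := H.e0
  have n1 : (0 : ℝ) ≤ exN.bd' := Nat.cast_nonneg _
  have n2 : (0 : ℝ) ≤ exD.bd' := Nat.cast_nonneg _
  have n3 : (0 : ℝ) ≤ bd2 exN := Nat.cast_nonneg _
  have n4 : (0 : ℝ) ≤ bd2 exD := Nat.cast_nonneg _
  have hN1 := fun w hw t => co_NN_le Wy hV k0 (w := w) hw (t := t)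
  have hU : ∀ i, Bd (Icc a' b) σ ω (J i) 1 := fun i => by
    fin_cases i
    exacts [hV 0, hV 1, hV 2, hV 3, hV 4, hV 5]
  have hD1 := fun t => co_exD_le (t := t) (δ := ε * dl (Af α) b)
    (by nlinarith [H.e1, H.dl_le hb, H.dl_pos hb]) (Wy.s0 b hb) (Wy.sd b hb) (Wy.o0 b hb)
    (Wy.od b hb) (H.A_le hb) he (fun i => (hU i).subset (singleton_subset_iff.2 hb)) k0
  have hε : 30000000 * (exN.bd' + 80 * exD.bd' + 6) * ε ≤ 1 := by
    rw [bd'_exN, bd'_exD]; push_cast; linarith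
  unfold C3
  generalize (exN.bd' : ℝ) = N1 at *
  generalize (exD.bd' : ℝ) = N2 at *
  generalize (bd2 exN : ℝ) = N3 at *
  generalize (bd2 exD : ℝ) = N4 at *
  set c0 : ℝ := Bf + Bξ + Bγ + N3 + N4 with hc0
  have step : ∀ B, (0 ≤ B ∧ ∀ i, ∀ w ∈ Icc a' b, ‖(J i).co k w‖ ≤ B * ψ w) →
      0 ≤ B / 2 + 15000000 * c0 ∧
        ∀ i, ∀ w ∈ Icc a' b, ‖(J i).co k w‖ ≤ (B / 2 + 15000000 * c0) * ψ w := by
    rintro B ⟨B0, hB⟩
    set c : ℝ := c0 + (N1 + 80 * N2 + 6) * ε * B with hc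
    have eB : 0 ≤ ε * B := mul_nonneg e0 B0
    have c1 : 0 ≤ c := by positivity
    have hg : ∀ w ∈ Icc a' b, ‖(f - NN a b α J).co k w +
        cc (kp (-2) k) (Af α w) (A' w) * (J 0).co k w‖ ≤ c * (dl (Af α) w * ψ w) := by
      intro w hw
      have p1 := O.pos w hw
      have p2 := H.dl_pos hw
      have h1 := hN1 w hw _ fun i => hB i w hw
      have h2 := H.cc_le (kp_ge hs k) hw
      rw [κm, mul_one] at h2
      have h3 : ‖cc (kp (-2) k) (Af α w) (A' w) * (J 0).co k w‖ ≤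
          6 * ε * dl (Af α) w * (B * ψ w) := by
        rw [norm_mul]; gcongr; exact hB 0 w hw
      have h4 := norm_sub_le (f.co k w) ((NN a b α J).co k w)
      have h5 := mul_le_mul_of_nonneg_left (hω w hw) n3
      have h6 := mul_pos p2 p1
      refine (norm_add_le _ _).trans ?_
      rw [co_sub, BoundedContinuousFunction.sub_apply]
      nlinarith [hf w hw, mul_nonneg ξ0 h6.le, mul_nonneg γ0 h6.le, mul_nonneg n4 h6.le,
        mul_nonneg (mul_nonneg n2 eB) h6.le]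
    have p1 := O.pos b hb
    have key := mode_one H hk O hM c1 hg
      (by
        have h1 := hS.dir k
        rw [pt, if_neg (by rw [κ1]; norm_num)] at h1
        have e : ‖(1 + (k : ℂ) ^ 2)‖ = 1 + (k : ℝ) ^ 2 := by
          rw [← Real.norm_of_nonneg (by positivity : 0 ≤ 1 + (k : ℝ) ^ 2), ← norm_real]
          push_cast; rfl
        rw [← e, ← norm_mul, h1]
        refine hξ.trans (mul_le_mul_of_nonneg_right ?_ p1.le)
        have : 0 ≤ (N1 + 80 * N2 + 6) * ε * B := by positivity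
        linarith)
      (by
        have h1 := hD1 _ fun i => hB i b hb
        have h2 := hS.bc k b rfl
        rw [bb_eq, co_sub, BoundedContinuousFunction.sub_apply, co_smul, co_sub,
          BoundedContinuousFunction.smul_apply, BoundedContinuousFunction.sub_apply,
          smul_eq_mul, sub_eq_iff_eq_add, ← sub_eq_iff_eq_add'] at h2
        have h3 := norm_sub_le ((exD.ev (vD (ef α b)
          (L2 (Af α b) (ef α b) (amean b α (J 0)) - 1) J)).co k b) (γ.co k b)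
        rw [h2, norm_mul, Complex.norm_two] at h3
        have h4 : rk k (Af α b) ≤ 1 := by
          have := rk_sq k (Af α b)
          rw [k2] at this
          nlinarith [H.As hb, rk_nonneg k (Af α b)]
        have h5 : ω b ^ 2 ≤ ψ b := (hω b hb).trans (mul_le_of_le_one_left p1.le (H.dl_le hb))
        have h6 := mul_le_mul_of_nonneg_left h5 n4
        have h7 : N2 * (80 * (ε * dl (Af α) b)) * (B * ψ b) ≤ N2 * (80 * (ε * 1)) * (B * ψ b) := by
          gcongr; exact H.dl_le hb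
        nlinarith [mul_le_mul_of_nonneg_right h4
          (norm_nonneg ((J 3).co k b - (J 0).co k b)), mul_nonneg ξ0 p1.le, mul_nonneg f0 p1.le,
          mul_nonneg n3 p1.le, mul_nonneg (mul_nonneg n1 eB) p1.le, mul_nonneg eB p1.le])
    refine ⟨by positivity, fun i w hw => ?_⟩
    have p2 := O.pos w hw
    have h1 := six_bound hs k (by norm_num : (1 : ℝ) ≤ 3000000) (H.cc_le' hs k hw)
      ((hg w hw).trans (mul_le_mul_of_nonneg_left
        (mul_le_of_le_one_left p2.le (H.dl_le hw)) c1)) (key w hw) (fun i => (J i).co k w) rfl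
      (by simpa using hJ.t1 k w hw) (hJ.t2' k hw) rfl (by
        have h1 := hL k w hw
        simp only [Lm, co_sub, co_add, co_smul, BoundedContinuousFunction.sub_apply,
          BoundedContinuousFunction.add_apply, BoundedContinuousFunction.smul_apply, smul_eq_mul,
          hJ.t2' k hw] at h1 ⊢
        rw [← h1]
        simp only [kp]
        push_cast
        ring) (hJ.t5 k w hw) i
    refine h1.trans (mul_le_mul_of_nonneg_right ?_ p2.le)
    nlinarith [mul_le_mul_of_nonneg_right hε B0]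
  intro w hw
  have p2 := O.pos w hw
  refine le_of_forall_pos_le_add fun η hη => ?_
  have := (boot (P := fun B => 0 ≤ B ∧ ∀ i, ∀ w ∈ Icc a' b, ‖(J i).co k w‖ ≤ B * ψ w) (B0 := M)
    (fun B B' h hB => ⟨h.1.trans hB, fun i w hw => (h.2 i w hw).trans
      (mul_le_mul_of_nonneg_right hB (O.pos w hw).le)⟩)
    ⟨le_trans (by positivity) (hM' ⟨0, rfl⟩), fun i w hw => ?_⟩ step (div_pos hη p2)).2 i w hw
  · rw [add_mul, div_mul_cancel₀ _ p2.ne'] at this
    refine this.trans (add_le_add_left (mul_le_mul_of_nonneg_right ?_ p2.le) _)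
    nlinarith [mul_nonneg (add_nonneg n3 n4) (add_nonneg (add_nonneg f0 ξ0) γ0)]
  · calc _ ≤ m⁻¹ * ‖J i‖ * m := by
          rw [mul_right_comm, inv_mul_cancel₀ hm.ne', one_mul]; exact norm_co_apply_le _ _ _
      _ ≤ M * ψ w := mul_le_mul (hM' ⟨i, rfl⟩) (hl w hw) hm.le
          (le_trans (by positivity) (hM' ⟨0, rfl⟩))

end Vale.Agent.P218E2
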