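import Vale.Agent.P218EN.Cyl
import Vale.Agent.P218PB.Defect
import Vale.Agent.P218E2.E3

/-! The modes `±1` and the boundary data in the standard classes. -/

namespace Vale.Agent.P218E2
open Set Complex Vale.Agent.P218EN Vale.Agent.P218EN.WA Vale.Agent.P218EN.Ex

section base
variable {a b ε : ℝ} {α : ℂ} {d σ ω : ℝ → ℝ} {J : Fin 6 → WA}

theorem base_cont (H : Base a b α ε d σ ω) :
    ContinuousOn xf (Icc a b) ∧ ContinuousOn (ef α) (Icc a b) := by
  have ne : ∀ w ∈ Icc a b, (w : ℂ) ≠ 0 := fun w hw => ofReal_ne_zero.2 (H.pos.trans_le hw.1).ne'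
  refine ⟨ContinuousOn.inv₀ (by fun_prop) fun w hw => mul_ne_zero two_ne_zero (ne w hw), ?_⟩
  unfold ef
  exact ContinuousOn.div (by fun_prop) (by fun_prop) fun w hw =>
    mul_ne_zero (by norm_num) (ne w hw)

theorem base_vN (H : Base a b α ε d σ ω) {S : Set ℝ} (hS : S ⊆ Icc a b)
    (hJ : ∀ i, Bd S σ ω (J i) 1) (i : Fin 10) : Kc S ε d σ ω (gN i) (vN a b α J i) 1 := by
  fin_cases i
  exacts [hJ 0, hJ 1, hJ 2, hJ 3, hJ 4, hJ 5,
    Bd.sc zero_le_one fun w hw => by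
      simpa [mkB_of_mem H.coef.cA (hS hw)] using H.hA w (hS hw),
    Bd.sc zero_le_one fun w hw => by
      simpa [mkB_of_mem (base_cont H).1 (hS hw)] using H.hx w (hS hw),
    Bd.sc zero_le_one fun w hw => by
      simpa [mkB_of_mem (base_cont H).2 (hS hw)] using H.he w (hS hw),
    Bd.sc zero_le_one fun w hw => by
      simpa [mkB_of_mem H.coef.cont_sqrt (hS hw)] using
        P218PB.norm_sqrt_le (H.coef.As (hS hw))]

theorem coef_mono {A A' : ℝ → ℂ} {ε' : ℝ} (H : Coef a b A A' ε) (h : ε ≤ ε')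
    (h' : ε' ≤ 1 / 1000) : Coef a b A A' ε' :=
  ⟨H.le, h', H.hA, H.cA', H.re,
    fun w hw => (H.A2 w hw).trans (mul_le_mul_of_nonneg_right h (H.re w hw).le),
    fun w hw => (H.A' w hw).trans (mul_le_mul_of_nonneg_right h (H.re w hw).le)⟩

/-- the ball of radius `M` is the unit ball of another base class -/
theorem base_scale (H : Base a b α ε d σ ω) {M : ℝ} (hM : 1 ≤ M) (h : M * ε ≤ 1 / 1000) :
    Base a b α (M * ε) d (fun w => M * σ w) fun w => M * ω w := by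
  have S := H.sys
  have e0 := S.e0
  have M0 : 0 ≤ M := by linarith
  have k : ∀ w ∈ Icc a b, ε * σ w ≤ M * ε * (M * σ w) := fun w hw => by
    have := mul_nonneg e0 (S.s0 w hw)
    nlinarith [mul_le_mul hM hM zero_le_one M0]
  have s0 := fun w hw => mul_nonneg M0 (S.s0 w hw)
  have o0 := fun w hw => mul_nonneg M0 (S.o0 w hw)
  refine ⟨H.pos, coef_mono H.coef (le_mul_of_one_le_left e0 hM) h, ⟨by positivity, by linarith,
    S.d0, S.d1, s0, o0, s0, o0, fun w hw => ?_, fun w hw => ?_, fun w hw => ?_, fun w hw => ?_⟩,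
    fun w hw => (H.hA w hw).trans (k w hw), fun w hw => (H.hx w hw).trans (k w hw),
    fun w hw => (H.he w hw).trans (k w hw),
    H.he'.trans (le_mul_of_one_le_left ((norm_nonneg _).trans H.he') hM)⟩
  · nlinarith [mul_le_mul_of_nonneg_left (S.sd w hw) M0]
  · nlinarith [mul_le_mul_of_nonneg_left (S.od w hw) M0]
  · nlinarith [mul_le_mul_of_nonneg_left (S.oo w hw) (mul_nonneg M0 M0)]
  · nlinarith [mul_le_mul_of_nonneg_left (S.os w hw) (mul_nonneg M0 M0)]

theorem bd_scale {S : Set ℝ} {x : WA} {M : ℝ} (hM : 0 < M) (h : Bd S σ ω x M) :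
    Bd S (fun w => M * σ w) (fun w => M * ω w) x 1 := by
  have := h.weaken (a' := fun w => M * σ w) (b' := fun w => M * ω w) (inv_pos.2 hM).le
    (fun w _ => by rw [inv_mul_cancel_left₀ hM.ne']) fun w _ => by
      rw [inv_mul_cancel_left₀ hM.ne']
  rwa [inv_mul_cancel₀ hM.ne'] at this

theorem base_small (H : Base a b α ε d σ ω) {w : ℝ} (hw : w ∈ Icc a b) :
    0 ≤ σ w ∧ σ w ≤ ε ∧ 0 ≤ ω w ∧ ω w ≤ ε ∧ ‖Af α w‖ ≤ ε ∧ ‖ef α w‖ ≤ ε ∧ ε ≤ 1 / 1000 := by
  have S := H.sys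
  have h1 : ε * d w ≤ ε := mul_le_of_le_one_right S.e0 (S.d1 w hw)
  have h2 : ε * σ w ≤ ε := mul_le_of_le_one_right S.e0 (((S.sd w hw).trans h1).trans S.e1)
  exact ⟨S.s0 w hw, (S.sd w hw).trans h1, S.o0 w hw, (S.od w hw).trans h1, (H.hA w hw).trans h2,
    (H.he w hw).trans h2, H.coef.e1⟩

theorem base_vB (H : Base a b α ε d σ ω) {c : ℝ} (hc : c ∈ Icc a b)
    (hJ : ∀ i, Bd {c} σ ω (J i) 1) (i : Fin 5) : Bd {c} 1 ω (P218PB.vB c α J i) 1 := by
  obtain ⟨s0, s1, o0, o1, hA, he, e1⟩ := base_small H hc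
  have hl := L2_sub_le e1 hA he (amean_sub_le (by linarith) (fun θ => by
    simpa using (hJ 0).ev_le (mem_singleton c) H.sys.e0 s1 o1 θ) he)
  have h2 := norm_le_norm_sub_add (L2 (Af α c) (ef α c) (amean c α (J 0))) 1
  rw [norm_one] at h2
  have u : ∀ i, Bd {c} 1 ω (J i) 1 := fun i =>
    (hJ i).weaken' (by simpa using s1.trans (by linarith)) fun _ _ => le_rfl
  fin_cases i
  exacts [u 0, u 1, u 3, bd_alg _ _ zero_le_one (by simpa using he.trans (by linarith)),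
    bd_alg _ _ zero_le_one (by simp; linarith)]

theorem bd_exB : P218PB.exB.bd = 286 := by decide
theorem bd'_exB : P218PB.exB.bd' = 1434 := by decide

/-- the boundary inhomogeneity of a restricted solution; `y` bounds its mode zero -/
theorem bd_BB (H : Base a b α ε d σ ω) {c y : ℝ} (hc : c ∈ Icc a b)
    (hJ : ∀ i, Bd {c} σ ω (J i) 1) (hy : ‖(BB c α J).co 0 c‖ ≤ y) :
    Bd {c} 1 1 (BB c α J) (y + 286 * ω c) := by
  obtain ⟨s0, s1, o0, o1, hA, he, e1⟩ := base_small H hc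
  have H0 : WSys {c} 1 1 1 ω 1 ω := wsys_one (by simpa using o0) (by simp; linarith)
    (by simp; linarith) fun _ _ => le_rfl
  have h1 : Bd {c} 1 ω (BB c α J) (P218PB.exB.bd) := by
    rw [P218PB.BB_eq]
    exact H0.Kdown (Nat.zero_le _) (H0.ev (g := fun _ => 0) (base_vB H hc hJ) _)
  have h2 := (bd_sub_m0 h1 (a' := ω) (by simpa using o0)).weaken (a' := 1) (b' := 1) o0
    (by simp) (by simp)
  have h3 : Bd {c} 1 1 (m0 (BB c α J)) y := Bd.sc ((norm_nonneg _).trans hy) (by simpa using hy)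
  have := h3.add h2
  rw [add_sub_cancel, bd_exB] at this
  exact this.mono (le_of_eq (by push_cast; ring))

theorem bd_of_co0 {S : Set ℝ} {x : WA} {B : ℝ} {σ' : ℝ → ℝ} (h : Bd S σ ω x B)
    (h0 : ∀ w ∈ S, x.co 0 w = 0) (h1 : ∀ w ∈ S, 0 ≤ σ' w) : Bd S σ' ω x B :=
  (bd_sub_m0 h h1).congr fun k w hw => by
    by_cases hk : k = 0 <;> simp [co_m0, hk, h0 w hw]

/-- the weighted angular derivative of the boundary inhomogeneity -/
theorem bd_BB1 (H : Base a b α ε d σ ω) {c : ℝ} (hc : c ∈ Icc a b) (hj : Jet a b (Af α) J)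
    (hJ : ∀ i, Bd {c} σ ω (J i) 1) : Bd {c} 1 1 (P218PB.BB1 c α J) (1434 * ω c) := by
  obtain ⟨s0, s1, o0, o1, hA, he, e1⟩ := base_small H hc
  have H0 : WSys {c} 1 1 1 ω 1 ω := wsys_one (by simpa using o0) (by simp; linarith)
    (by simp; linarith) fun _ _ => le_rfl
  have H1 : WSys {c} 1 1 1 ω ω ω := wsys_one (by simpa using o0) (by simp; linarith)
    (by simp) (by simp; linarith)
  have r1 := P218PB.norm_sqrt_le (H.coef.As hc)
  have z : ∀ i, Bd {c} ω ω (zD (Complex.sqrt (Af α c)) J i) 1 := fun i => by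
    fin_cases i
    exacts [((bd_of_co0 (hJ 1) (by simp [hj.t1 0 c hc]) (by simpa using o0)).smul _).mono
        (by simpa using r1),
      ((bd_of_co0 (hJ 2) (by simp [hj.t2 0 c hc]) (by simpa using o0)).smul _).mono
        (by simpa using r1),
      bd_of_co0 (x := J 5) (hJ 5) (by simp [hj.t5 0 c hc]) (by simpa using o0),
      (Bd.zero _ _ _).mono zero_le_one, (Bd.zero _ _ _).mono zero_le_one]
  have h1 : Bd {c} ω ω (P218PB.BB1 c α J) (P218PB.exB.bd' * 1) :=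
    H1.Mdown (Nat.zero_le _) (H0.dv H1 (g := fun _ => 0) (base_vB H hc hJ) (base_vB H hc hJ) z _)
  rw [bd'_exB] at h1
  exact (h1.weaken (a' := 1) (b' := 1) o0 (by simp) (by simp)).mono
    (le_of_eq (by push_cast; ring))

end base

/-- the weight of the modes `±1` -/
noncomputable def ps (a0 : ℝ) (α : ℂ) (w : ℝ) : ℝ := 8 * om a0 α w ^ 2 / (w * tau α w)

section std
variable {a0 a a' b : ℝ} {α : ℂ} {J : Fin 6 → WA} {f ξ γ : WA} {k : ℤ}

theorem ps_pos {w : ℝ} (p : Pt a0 α w) : 0 < ps a0 α w := by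
  have := p.om_pos
  have := p.w_pos
  have := p.tau_pos
  unfold ps; positivity

theorem ps_eq {w : ℝ} (p : Pt a0 α w) : ps a0 α w = 8 * om a0 α w ^ 2 / ‖1 - α * w‖ := by
  rw [ps, p.tau_eq, mul_div_cancel₀ _ p.w_pos.ne']

theorem sq_le_ps {w : ℝ} (p : Pt a0 α w) : om a0 α w ^ 2 ≤ dl (Af α) w * ps a0 α w := by
  have := p.n_pos
  rw [ps_eq p, p.dl_eq, div_mul_div_comm, le_div_iff₀ (by positivity)]
  nlinarith [mul_le_mul_of_nonneg_left p.sq_le (sq_nonneg (om a0 α w))]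

theorem admU_ps (h : Rg a0 a b α) {m : ℝ} (hm : 0 ≤ m) :
    ∃ ψ', AdmU a b (Af α) (fun w => ps a0 α w + m) ψ' := by
  refine ⟨fun w => -((3 / 2 * (Af α w).re + w⁻¹) * ps a0 α w),
    fun w hw => add_pos_of_pos_of_nonneg (ps_pos (h.pt hw)) hm, fun w hw => ?_, fun w hw => ?_⟩
  · have p := h.pt hw
    have w0 := p.w_pos
    have t0 := p.tau_pos
    refine (((((h.admO_om.hd w hw).fun_pow 2).const_mul 8).fun_div
      ((hasDerivWithinAt_id w _).fun_mul (h.hasDeriv_tau hw)) (by positivity)).add_const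
        m).congr_deriv ?_
    simp only [ps, id]
    field_simp
    ring
  · have p := h.pt hw
    have := ps_pos p
    have := p.re_Af_pos
    have := inv_pos.2 p.w_pos
    have : 0 ≤ (3 / 2 * (Af α w).re + w⁻¹) * ps a0 α w := by positivity
    have : 0 ≤ 7 / 8 * (Af α w).re * (ps a0 α w + m) := by positivity
    linarith

/-- **(E3)** in the standard class, beyond the collar -/
theorem e3_std (h : Rg a0 a b α) (hS : Sol a b α J f ξ γ) (ha' : a' ∈ Icc a b)
    (hJ : ∀ i, Bd (Icc a' b) (sg a0 α) (om a0 α) (J i) 1) (hk : k = 1 ∨ k = -1)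
    (hf : ∀ w ∈ Icc a' b, f.co k w = 0) {m B : ℝ} (hm : 0 ≤ m) (hB : 0 ≤ B)
    (hξ : ‖ξ.co k b‖ ≤ B * (ps a0 α b + m)) (hγ : ‖γ.co k b‖ ≤ B * (ps a0 α b + m)) (i : Fin 6) :
    ∀ w ∈ Icc a' b, ‖(J i).co k w‖ ≤ C3 * (1 + 2 * B) * (ps a0 α w + m) := by
  have sub : Icc a' b ⊆ Icc a b := Icc_subset_Icc_left ha'.1
  have h' := h.mono ha'.2 sub
  have hb := right_mem_Icc.2 h.le
  obtain ⟨ψ', O⟩ := admU_ps h' hm
  have := e3 hS ha'.1 h'.coef h'.base.sys h.ep_small (base_vN h.base sub hJ)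
    ((h.base.he b hb).trans (mul_le_mul_of_nonneg_left ((h.base.sys.sd b hb).trans
      (mul_le_of_le_one_left (h.pt hb).dl_pos.le h.base.sys.e1)) h.ep_pos.le)) O
    (fun w hw => (sq_le_ps (h'.pt hw)).trans (mul_le_mul_of_nonneg_left
      (le_add_of_nonneg_right hm) (h'.pt hw).dl_pos.le)) hk le_rfl hB hB
    (fun w hw => by simp [hf w hw]) hξ hγ i
  rwa [show 1 + 0 + B + B = 1 + 2 * B by ring] at this

/-- **(E3)** without information on the terminal data -/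
theorem e3_free (h : Rg a0 a b α) (hS : Sol a b α J f ξ γ) (ha' : a' ∈ Icc a b)
    (hJ : ∀ i, Bd (Icc a' b) (sg a0 α) (om a0 α) (J i) 1) (hk : k = 1 ∨ k = -1)
    (hf : ∀ w ∈ Icc a' b, f.co k w = 0) (i : Fin 6) :
    ∀ w ∈ Icc a' b, ‖(J i).co k w‖ ≤ 573 * C3 * (ps a0 α w + om a0 α b) := by
  have hb := right_mem_Icc.2 h.le
  have hb' := right_mem_Icc.2 ha'.2
  have p := h.pt hb
  have k0 : k ≠ 0 := by omega
  have p1 := ps_pos p
  have p2 := p.om_pos
  have := e3_std h hS ha' hJ hk hf p2.le (B := 286) (by norm_num) ?_ ?_ i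
  · rwa [show C3 * (1 + 2 * 286) = 573 * C3 by ring] at this
  · have h1 := hS.dir k
    rw [pt, if_neg (by rcases hk with rfl | rfl <;> norm_num [kp])] at h1
    have h2 := (hJ 0).co_le k hb' (by rw [wt_ne _ _ k0]; exact p2.le)
    rw [wt_ne _ _ k0] at h2
    rw [← h1, norm_mul, norm_one_add_sq,
      show (k : ℝ) ^ 2 = 1 by rcases hk with rfl | rfl <;> norm_num]
    linarith
  · obtain ⟨-, -, o0, o1, -, -, e1⟩ := base_small h.base hb
    have H0 : WSys {b} 1 1 1 (om a0 α) 1 (om a0 α) := wsys_one (by simpa using o0)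
      (by simp; linarith) (by simp; linarith) fun _ _ => le_rfl
    have h1 : Bd {b} 1 (om a0 α) (BB b α J) (P218PB.exB.bd) := by
      rw [P218PB.BB_eq]
      exact H0.Kdown (Nat.zero_le _) (H0.ev (g := fun _ => 0) (base_vB h.base hb
        fun i => (hJ i).subset (singleton_subset_iff.2 hb')) _)
    have h2 := h1.co_le k (mem_singleton b) (by rw [wt_ne _ _ k0]; exact p2.le)
    rw [wt_ne _ _ k0, bd_exB, hS.bc k b rfl] at h2
    push_cast at h2
    linarith

end std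

end Vale.Agent.P218E2
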