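import Vale.Agent.P218E2.Step
import Vale.Agent.P218CH.EndX
import Vale.Agent.P218TP.RJ3

/-! The comparison step for the family of solutions of the end problem. -/

namespace Vale.Agent.P218E2
open Set Complex Metric Vale.Agent.P218EN Vale.Agent.P218EN.WA Vale.Agent.P218CH
open Vale.Agent.P218TP (rpin cT GG)

theorem rpin_eq (α : ℂ) (J : Fin 6 → WA) {c : ℝ} (hc : 0 < c) :
    1 - rpin α J c * c = (1 - α * c) * (1 + (J 0).co 0 c) ^ 2 := by
  rw [rpin, div_mul_cancel₀ _ (ofReal_ne_zero.2 hc.ne')]; ring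

theorem kp_iff (k : ℤ) : 2 ≤ kp (-2) k ↔ 2 ≤ |k| := by
  have e : 4 ≤ k ^ 2 ↔ 2 ≤ |k| := by
    rw [← sq_abs k]
    constructor <;> intro h <;> nlinarith [abs_nonneg k]
  rw [← e, kp]
  constructor <;> intro h
  · exact_mod_cast (by linarith : (4 : ℝ) ≤ (k : ℝ) ^ 2)
  · have : (4 : ℝ) ≤ (k : ℝ) ^ 2 := by exact_mod_cast h
    linarith

/-- `c ^ (-1 / 8)` -/
noncomputable def xx (c : ℝ) : ℝ := c ^ (-(1 / 8) : ℝ)

section
variable {a c : ℝ} {α : ℂ}

theorem xx_pow (hc : 0 < c) (n : ℕ) {t : ℝ} (h : t = -(n / 8)) : c ^ t = xx c ^ n := by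
  rw [xx, ← Real.rpow_natCast, ← Real.rpow_mul hc.le, h]; congr 1; ring

theorem xx_pos (hc : 0 < c) : 0 < xx c := Real.rpow_pos_of_pos hc _

theorem xx_le (hc : 1 ≤ c) : xx c ≤ 1 := Real.rpow_le_one_of_one_le_of_nonpos hc (by norm_num)

theorem xx_inv (hc : 0 < c) : c⁻¹ = xx c ^ 8 := by
  rw [← Real.rpow_neg_one, xx_pow hc 8 (by norm_num)]

theorem om_zero (ha : 0 < a) (hc : 0 < c) : om a 0 c = a ^ (3 / 8 : ℝ) * xx c ^ 7 := by
  have e1 : a ^ (7 / 8 : ℝ) = a ^ (3 / 8 : ℝ) * √a := by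
    rw [Real.sqrt_eq_rpow, ← Real.rpow_add ha]; norm_num
  have := Real.sqrt_pos.2 ha
  rw [om, tau, sub_zero, norm_inv, norm_real, Real.norm_of_nonneg hc.le,
    Real.mul_rpow ha.le (inv_pos.2 hc).le, e1, Real.inv_rpow hc.le, ← Real.rpow_neg hc.le,
    xx_pow hc 7 (by norm_num)]
  field_simp

/-- the standard weights at a non-tip level -/
theorem wt_xx (h0 : 10 ^ 30 ≤ a) (hc : a ≤ c) (hs : ‖α‖ * c ≤ 1 / 2) :
    om a α c ≤ 3 * a * xx c ^ 7 ∧ sg a α c ≤ 12 * a * xx c ^ 4 ∧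
      ps a α c ≤ 144 * a ^ 2 * xx c ^ 14 := by
  have N : NT c c α := ⟨by linarith, le_rfl, hs⟩
  have N0 : NT c c 0 := ⟨by linarith, le_rfl, by simp⟩
  have m := left_mem_Icc.2 (le_refl c)
  obtain ⟨h1, h2⟩ := wt_comp N0 N h0 hc m m le_rfl
  have p := (N.rg h0 hc).pt m
  have p0 := (N0.rg h0 hc).pt m
  have c0 := p.w_pos
  have x0 := xx_pos c0
  have x1 := xx_le (c := c) (by linarith)
  have h3 : om a 0 c ≤ a * xx c ^ 7 := by
    rw [om_zero p.a0_pos c0]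
    gcongr
    simpa using Real.rpow_le_rpow_of_exponent_le (x := a) (by linarith)
      (by norm_num : (3 / 8 : ℝ) ≤ 1)
  have h4 : P218EN.mu 0 c ≤ xx c ^ 4 := by
    refine le_of_sq_le_sq ?_ (by positivity)
    rw [p0.mu_sq, ← pow_mul, ← xx_inv c0]
    simp only [zero_mul, sub_zero, one_re, mul_one]
    exact inv_anti₀ c0 (by linarith)
  have h5 : sg a 0 c ≤ om a 0 c + P218EN.mu 0 c :=
    mul_le_of_le_one_left (add_pos p0.om_pos p0.mu_pos).le p0.dl_le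
  have h6 : xx c ^ 7 ≤ xx c ^ 4 := pow_le_pow_of_le_one x0.le x1 (by norm_num)
  have h7 : om a α c ≤ 3 * a * xx c ^ 7 := by linarith
  refine ⟨h7, by nlinarith [pow_pos x0 4], ?_⟩
  rw [ps_eq p, div_le_iff₀ p.n_pos]
  have h8 := pow_le_pow_left₀ p.om_pos.le h7 2
  have h9 : 0 ≤ a ^ 2 * xx c ^ 14 := by positivity
  nlinarith [mul_le_mul_of_nonneg_left (N.v m).2.1 h9]

theorem norm_co_le_ev {x : WA} {w t : ℝ} (h : ∀ θ, ‖x.ev w θ‖ ≤ t) (k : ℤ) : ‖x.co k w‖ ≤ t := by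
  have h1 := intervalIntegral.norm_integral_le_of_norm_le_const (a := 0) (b := 2 * Real.pi)
    (f := fun θ => x.ev w θ * ch (-k) θ) (C := t) fun θ _ => by simpa [norm_ch] using h θ
  have := Real.pi_pos
  rw [integral_ev, sub_zero, abs_of_pos (by positivity), norm_mul, norm_mul, Complex.norm_two,
    norm_real, Real.norm_of_nonneg this.le, mul_comm t] at h1
  exact le_of_mul_le_mul_left h1 (by positivity)

theorem norm_pB_le {ε l η t p : ℂ} {δ : ℝ} (hδ : δ ≤ 1 / 1000) (hε : ‖ε‖ ≤ δ) (hl : ‖l‖ ≤ 80 * δ)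
    (hη : ‖η‖ ≤ δ) (ht : ‖t‖ ≤ δ) (hp : ‖p‖ ≤ δ) : ‖pB ε l η t p‖ ≤ 100 * δ := by
  have δ0 := (norm_nonneg _).trans hε
  have m : ∀ {x y : ℂ} {r s : ℝ}, 0 ≤ r → 0 ≤ s → ‖x - 1‖ ≤ r * δ → ‖y - 1‖ ≤ s * δ →
      ‖x * y - 1‖ ≤ (r + s + r * s / 1000) * δ := fun {x y r s} r0 s0 hx hy =>
    (P218TP.mul_sub_one_le hx hy).trans (by
      nlinarith [mul_le_mul_of_nonneg_left hδ (mul_nonneg (mul_nonneg r0 s0) δ0)])
  have h1 : ‖1 + η - 1‖ ≤ 1 * δ := by simpa using hη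
  have h2 : ‖1 + η - p - 1‖ ≤ 2 * δ := by
    rw [show 1 + η - p - 1 = η - p by ring]; linarith [norm_sub_le η p]
  have h3 := m zero_le_one zero_le_one h1 h1
  have h4 := m zero_le_two zero_le_two h2 h2
  have h5 : ‖1 + ε * (1 + η) ^ 2 - 1‖ ≤ 2 * δ := by
    have := norm_le_norm_sub_add ((1 + η) * (1 + η)) 1
    rw [norm_one] at this
    rw [add_sub_cancel_left, norm_mul, sq, mul_comm]
    exact mul_le_mul (by linarith) hε (norm_nonneg _) zero_le_two
  have h6 : ‖(1 + η) ^ 2 + t ^ 2 - 1‖ ≤ 3 * δ := by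
    rw [add_sub_right_comm, sq]
    refine (norm_add_le _ _).trans ?_
    rw [norm_pow]
    nlinarith [norm_nonneg t]
  have h7 : ‖1 + l - 1‖ ≤ 80 * δ := by simpa using hl
  have h8 := m (by norm_num) (by norm_num) h3 h4
  have h9 := m (by norm_num) (by norm_num) (m (by norm_num) (by norm_num) h7
    (m zero_le_two zero_le_two h5 h5)) h6
  have := norm_sub_le_of_le h8 h9
  rw [sub_sub_sub_cancel_right] at this
  simp only [pB, sq] at this ⊢
  linarith

/-- the boundary defect of jets which are small in all modes -/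
theorem co_BB_le {J : Fin 6 → WA} {δ : ℝ} (hδ : δ ≤ 1 / 1000) (hA : ‖Af α c‖ ≤ δ)
    (he : ‖ef α c‖ ≤ δ) (hJ : ∀ i θ, ‖(J i).ev c θ‖ ≤ δ) (k : ℤ) :
    ‖(BB c α J).co k c‖ ≤ 100 * δ :=
  norm_co_le_ev (fun θ => by
    rw [ev_BB]
    exact norm_pB_le hδ he (L2_sub_le hδ hA he (amean_sub_le (by linarith) (hJ 0) he)) (hJ 0 θ)
      (hJ 1 θ) (hJ 3 θ)) k

end

variable {V : Type*} [NormedAddCommGroup V] [NormedSpace ℂ V] {a s r R K : ℝ} {RV : Set V}
  {Cf : V × (Fin 6 → WA) → WA} {JS : Fin 6 → WA} {J : ℝ → ℂ × V → Fin 6 → WA}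

/-- **STEP for the family.** Any solution `J'` on `[a, c]` with the collar source and the
Dirichlet data is close to the member of the family with the re-pinned profile. -/
theorem step_fam (I : EndIn a s r R K RV Cf JS) (F : EndFam a s r R K RV Cf JS J)
    (ha : 10 ^ 34 ≤ a) {c L β y : ℝ} {α' : ℂ} {v : V} {J' : Fin 6 → WA} (hc : a ^ 2 ≤ c)
    (hK : 4 * K ≤ c) (hs : ‖α'‖ * c ≤ 1 / 4) (hv : v ∈ ball (0 : V) r) (hj : Jet a c (Af α') J')
    (he : WEq (Icc a c) (EE a c α' J') (src a s Cf α' v J'))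
    (hJ' : ∀ i, Bd (Icc a c) (sg a α') (om a α') (J' i) R)
    (dir : ∀ k : ℤ, 2 ≤ |k| → (J' 0).co k a = P218CH.mu α' 0 a * (JS 0).co k a)
    (hβ : ∀ k : ℤ, k = 1 ∨ k = -1 → ‖(J' 0).co k c‖ ≤ β) (hy : ‖(BB c α' J').co 0 c‖ ≤ y)
    (haL : a ≤ L) (hL : 2 * L ≤ c) :
    rpin α' J' c ∈ D c K ∧ ‖rpin α' J' c‖ * c ≤ 1 / 2 ∧
      ‖rpin α' J' c - α'‖ ≤ 36 * a * c ^ (-(3 / 2) : ℝ) ∧
      ‖ab a L α' J' - ab a L (rpin α' J' c) (J c (rpin α' J' c, v))‖ ≤
        5 * 10 ^ 18 * ((L / c) ^ (3 / 8 : ℝ) * (β + (y + om a α' c) / c)) := by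
  have hac := I.W_ge hc
  have c0 := I.W_pos hc
  have hsc := I.s_le hc
  have hcc := right_mem_Icc.2 hac
  have haa := left_mem_Icc.2 hac
  have e := rpin_eq α' J' c0
  generalize rpin α' J' c = α at e ⊢
  have N' := nt_of I.big' le_rfl hac hs
  have u' := fun i => (hJ' i).mono I.R_le
  have p' := (N'.rg I.big' le_rfl).pt hcc
  have hη := (u' 0).co_le 0 hcc (by simpa using p'.sg_pos.le)
  rw [wt_zero, one_mul] at hη
  obtain ⟨d1, N, -⟩ := repin I.big' le_rfl hac hs hη e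
  have hD : α ∈ D c K := mem_D_of_norm c0 (by
    have : K / c ≤ 1 / 4 := by rw [div_le_iff₀ c0]; linarith
    linarith [N.small])
  have hq : (α, v) ∈ D c K ×ˢ ball (0 : V) r := ⟨hD, hv⟩
  have fl := I.flat (I.small hc hD)
  have sm' := I.small_of hc (hs.trans (by norm_num))
  have fl' := I.flat sm'
  have R0 := I.R_pos
  have e0 := I.e_pos
  have b := F.bd c hc _ hq
  refine ⟨hD, N.small, ?_, ?_⟩
  · refine le_of_mul_le_mul_right (d1.trans ?_) c0
    rw [xx_pow c0 12 (by norm_num), show xx c ^ 12 = xx c ^ 4 * xx c ^ 8 by ring, ← xx_inv c0,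
      mul_assoc, mul_assoc, mul_assoc, inv_mul_cancel₀ c0.ne']
    linarith [(wt_xx I.big' hac N'.small).2.1]
  have key := step ha le_rfl I.le I.le2 (by nlinarith) hs (cc := 2 / 10 ^ 12) (by norm_num)
    (by norm_num) hj he u' e (F.sol c hc _ hq) (fun i => (b i).mono (by linarith [I.R_le]))
    (fun k hk => by rw [co_xi, if_neg (by rw [kp_iff]; omega)])
    (fun k hk => by
      have := N'.prof.rA_ne haa
      rw [co_xi, if_pos ((kp_iff k).2 hk), ← (I.jet c hac).dir k haa, dir k hk]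
      simp only [P218CH.mu]
      field_simp)
    (fun B hB => by
      have e1 := ab_rp I.le hsc N.prof N'.prof J'
      have h1 := I.ab_le sm' ((I.clp_le (N'.rg I.big' le_rfl) hsc hJ').trans_eq (mul_comm _ _))
      have h2 := I.ab_le (I.small hc hD) ((I.clp_le (N.rg I.big' le_rfl) hsc b).trans
        (by nlinarith [ep_pos I.a_pos]))
      refine ((Bd.of_norm _ _).mono (I.src_lip fl hv (by rw [e1]; linarith) (by linarith)
        hB)).congr fun k w hw => ?_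
      have hw' : w ∈ Icc a c := ⟨hw.1, hw.2.trans hsc⟩
      have := N'.prof.rA_ne hw'
      simp only [co_sub, BoundedContinuousFunction.sub_apply, src, e1,
        co_fn_mul (cmu2 N.prof N'.prof) hw', co_fn_mul (cmu2 fl.prof fl.prof0) hw,
        co_fn_mul (cmu2 fl'.prof fl'.prof0) hw]
      simp only [P218CH.mu]
      field_simp)
    (fun k w hw => I.src_supp k hw.1) (fun k w hw => I.src_supp k hw.1) hβ hy haL hL
  have hLc : L ≤ c := by linarith [I.a_pos]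
  have fL : Flat a L α := ⟨fl.one, haL, (N.mono le_rfl haL hLc).small⟩
  rw [← ab_rp haL hLc N.prof N'.prof J']
  refine (fL.ab_lip _ _).trans ?_
  have := norm_clp_le (J := rp a c α α' J' - J c (α, v)) haL zero_le_one key
    fun _ _ => ⟨le_rfl, le_rfl⟩
  linarith

theorem fin_le {c L β y o B1 B2 B3 : ℝ} (hc : 1 ≤ c) (hL : 0 ≤ L) (h2 : 0 ≤ B2) (h3 : 0 ≤ B3)
    (hβ : β ≤ B1 * xx c ^ 14) (hy : y ≤ B2 * xx c ^ 7) (ho : o ≤ B3 * xx c ^ 7) :
    (L / c) ^ (3 / 8 : ℝ) * (β + (y + o) / c) ≤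
      (B1 + B2 + B3) * L ^ (3 / 8 : ℝ) * c ^ (-(2 + 1 / 8) : ℝ) := by
  have c0 : 0 < c := by linarith
  have x0 := xx_pos c0
  have x1 := xx_le hc
  have l0 := Real.rpow_nonneg hL (3 / 8 : ℝ)
  have h4 : (y + o) * xx c ^ 8 ≤ (B2 + B3) * xx c ^ 14 := by
    calc _ ≤ (B2 + B3) * xx c ^ 7 * xx c ^ 8 := by gcongr; linarith
      _ = (B2 + B3) * xx c ^ 15 := by ring
      _ ≤ _ := mul_le_mul_of_nonneg_left (pow_le_pow_of_le_one x0.le x1 (by norm_num))
        (by linarith)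
  rw [Real.div_rpow hL c0.le, div_eq_mul_inv, ← Real.rpow_neg c0.le, xx_pow c0 3 (by norm_num),
    xx_pow c0 17 (by norm_num), div_eq_mul_inv (y + o), xx_inv c0]
  calc _ ≤ L ^ (3 / 8 : ℝ) * xx c ^ 3 * ((B1 + B2 + B3) * xx c ^ 14) := by gcongr; linarith
    _ = _ := by ring

theorem C3_pos : 0 < C3 := by unfold C3; positivity

/-- **STEP between two cuts** -/
theorem fam_step (I : EndIn a s r R K RV Cf JS) (F : EndFam a s r R K RV Cf JS J)
    (ha : 10 ^ 34 ≤ a) : ∃ C, 0 ≤ C ∧ ∀ W c L α' v, a ^ 2 ≤ c → 4 * K ≤ c → 2 * c ≤ W →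
      W ≤ 32 * c → α' ∈ D W K → v ∈ ball (0 : V) r → ‖α'‖ * c ≤ 1 / 4 → a ≤ L → 2 * L ≤ c →
      ∀ α, α = rpin α' (J W (α', v)) c → α ∈ D c K ∧ ‖α‖ * c ≤ 1 / 2 ∧
        ‖α - α'‖ ≤ C * c ^ (-(3 / 2) : ℝ) ∧ ‖GG c α - GG W α'‖ ≤ C * c ^ (-(2 + 1 / 8) : ℝ) ∧
        ‖ab a L α' (J W (α', v)) - ab a L α (J c (α, v))‖ ≤
          C * L ^ (3 / 8 : ℝ) * c ^ (-(2 + 1 / 8) : ℝ) := by
  have a0 := I.a_pos
  have t1 := P218TP.one_le_cT
  have t2 := C3_pos
  have t3 : 0 ≤ cT * (70000 * a) := by positivity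
  have t4 : 0 ≤ C3 * (144 * a ^ 2) := by positivity
  refine ⟨5 * 10 ^ 18 * (C3 * (144 * a ^ 2) + cT * (70000 * a) + 3 * a), by positivity, ?_⟩
  rintro W c L α' v hc hK h1 h2 hD hv hs haL hL α rfl
  have hac := I.W_ge hc
  have c0 := I.W_pos hc
  have c1 : 1 ≤ c := by linarith
  have hsc := I.s_le hc
  have hW : a ^ 2 ≤ W := by linarith
  have hcW : c ≤ W := by linarith
  have hq : (α', v) ∈ D W K ×ˢ ball (0 : V) r := ⟨hD, hv⟩
  have S := F.sol W hW _ hq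
  have b := F.bd W hW _ hq
  have H := I.rg hW hD
  have R0 := I.R_pos
  have S' := H.base.restrict S hac (Icc_subset_Icc_right hcW)
  have u := fun i => ((b i).subset (Icc_subset_Icc_left hac)).mono
    (show R / 8 ≤ 1 by linarith [I.R_le])
  have sf : ∀ k, ∀ w ∈ Icc c W, (src a s Cf α' v (J W (α', v))).co k w = 0 :=
    fun k w hw => I.src_supp k (hsc.trans hw.1)
  have x0 := xx_pos c0
  have x1 := xx_le c1
  obtain ⟨w1, -, w3⟩ := wt_xx (α := α') I.big' hac (by linarith)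
  have pin : ∀ k : ℤ, |k| ≤ 1 → (xi a JS α').co k W = 0 := fun k hk => by
    rw [co_xi, if_neg (by rw [kp_iff]; omega)]
  have z : ‖(0 : WA).co 0 W‖ = 0 := by simp
  obtain ⟨r1, r2, r3, r4⟩ := step_fam I F ha hc hK hs hv S'.jet S'.eq
    (fun i => ((b i).subset (Icc_subset_Icc_right hcW)).mono (by linarith))
    (fun k hk => by
      have h3 := S.dir k
      rw [pt, if_pos ((kp_iff k).2 hk), co_xi, if_pos ((kp_iff k).2 hk),
        ← (I.jet c hac).dir k (left_mem_Icc.2 hac), mul_left_comm] at h3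
      refine mul_left_cancel₀ (fun h0 => ?_) h3
      have := norm_one_add_sq k
      rw [h0, norm_zero] at this
      nlinarith [sq_nonneg (k : ℝ)])
    (β := C3 * (144 * a ^ 2) * xx c ^ 14) (fun k hk => by
      have := e3_std H S ⟨hac, hcW⟩ u hk (sf k) le_rfl le_rfl
        (by rw [pin k (by rcases hk with rfl | rfl <;> simp)]; simp) (by simp) 0 c ⟨le_rfl, hcW⟩
      refine this.trans ?_
      rw [mul_zero, add_zero, add_zero, mul_one, mul_assoc]
      gcongr)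
    (y := cT * (70000 * a) * xx c ^ 7) ((P218TP.bc_std H hD I.K_big hac h1 h2 S sf u).trans (by
      have h3 : W⁻¹ ≤ xx c ^ 7 := (inv_anti₀ c0 hcW).trans ((xx_inv c0).trans_le
        (pow_le_pow_of_le_one x0.le x1 (by norm_num)))
      rw [z, add_zero, div_eq_mul_inv, mul_assoc cT]
      gcongr)) haL hL
  refine ⟨r1, r2, r3.trans ?_, ?_, r4.trans ?_⟩
  · exact mul_le_mul_of_nonneg_right (by linarith) (Real.rpow_nonneg c0.le _)
  · have h3 := P218TP.transport_std H hD I.K_big hac h1 h2 S sf u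
    have h4 := S.dir 0
    rw [pt_zero, pin 0 (by simp)] at h4
    rw [P218TP.rpin_of_zero (w := W) (by linarith) (by simpa using h4), z, add_zero] at h3
    refine h3.trans ?_
    have h5 : (√W)⁻¹ / W ^ 2 ≤ c ^ (-(2 + 1 / 8) : ℝ) := by
      calc _ ≤ (√c)⁻¹ / c ^ 2 := by gcongr
        _ = c ^ (-(5 / 2) : ℝ) := by
          rw [Real.sqrt_eq_rpow, ← Real.rpow_neg c0.le, ← Real.rpow_two, ← Real.rpow_sub c0]
          norm_num
        _ ≤ _ := Real.rpow_le_rpow_of_exponent_le c1 (by norm_num)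
    rw [← mul_assoc, mul_div_assoc]
    exact mul_le_mul (by linarith) h5 (by positivity) (by positivity)
  · exact (mul_le_mul_of_nonneg_left (fin_le c1 (by linarith) t3 (by positivity) le_rfl le_rfl w1)
      (by norm_num)).trans_eq (by ring)

/-- the end of the shrinker is in the standard class -/
theorem send_bd (I : EndIn a s r R K RV Cf JS) {b : ℝ} (hb : a ≤ b) (i : Fin 6) :
    Bd (Icc a b) (sg a 0) (om a 0) (JS i) R := by
  have N : NT a b 0 := ⟨by linarith [I.big'], hb, by simp⟩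
  refine (((I.bdS i).subset Icc_subset_Ici_self).weaken (a' := sg a 0) (b' := om a 0) zero_le_two
    (fun w hw => ?_) fun w hw => ?_).mono (by linarith [I.R_pos])
  all_goals have p := (N.rg I.big' le_rfl).pt hw
  · have := N.dl_ge hw
    unfold sg
    nlinarith [p.om_pos, p.mu_pos]
  · linarith [p.om_pos]

theorem send_sol (I : EndIn a s r R K RV Cf JS) {b : ℝ} (hb : a ≤ b) :
    Sol a b 0 JS 0 (JS 0 - JS 2) (BB b 0 JS) :=
  ⟨I.jet b hb, I.eq b hb, fun k => (I.jet b hb).dir k (pt_mem hb _ k), fun _ _ _ => rfl⟩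

/-- the modes `±1` of the end of the shrinker decay like `w ^ (-7 / 4)` -/
theorem send_one (I : EndIn a s r R K RV Cf JS) {k : ℤ} (hk : k = 1 ∨ k = -1) (i : Fin 6) {c : ℝ}
    (hc : a ≤ c) : ‖(JS i).co k c‖ ≤ 573 * C3 * (147 * a ^ 2) * xx c ^ 14 := by
  have a1 : 1 ≤ a := by linarith [I.big']
  have c0 : 0 < c := by linarith
  have hb : c ≤ c ^ 2 := by nlinarith
  have N : NT a (c ^ 2) 0 := ⟨by linarith [I.big'], hc.trans hb, by simp⟩
  have h1 := e3_free (N.rg I.big' le_rfl) (send_sol I N.le) (left_mem_Icc.2 N.le)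
    (fun i => (send_bd I N.le i).mono I.R_le) hk (by simp) i c ⟨hc, hb⟩
  have h2 := (wt_xx (α := 0) I.big' hc (by simp)).2.2
  have h3 := (wt_xx (α := 0) I.big' N.le (by simp)).1
  have e : xx (c ^ 2) = xx c ^ 2 := by
    rw [xx, ← Real.rpow_two, ← Real.rpow_mul c0.le, xx_pow c0 2 (by norm_num)]
  rw [e, ← pow_mul, show 2 * 7 = 14 from rfl] at h3
  have := C3_pos
  have x0 := pow_pos (xx_pos c0) 14
  refine h1.trans ?_
  rw [mul_assoc _ (147 * a ^ 2)]
  gcongr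
  linarith [mul_le_mul_of_nonneg_right (show a ≤ a ^ 2 by nlinarith) x0.le]

/-- **STEP for the shrinker** -/
theorem fam_stepS (I : EndIn a s r R K RV Cf JS) (F : EndFam a s r R K RV Cf JS J)
    (ha : 10 ^ 34 ≤ a) : ∃ C, 0 ≤ C ∧ ∀ c L, a ^ 2 ≤ c → 4 * K ≤ c → a ≤ L → 2 * L ≤ c →
      ∀ α, α = rpin 0 JS c → α ∈ D c K ∧ ‖α‖ * c ≤ 1 / 2 ∧ ‖α‖ ≤ C * c ^ (-(3 / 2) : ℝ) ∧
        ‖clp a L JS - ab a L α (J c (α, 0))‖ ≤ C * L ^ (3 / 8 : ℝ) * c ^ (-(2 + 1 / 8) : ℝ) := by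
  have a0 := I.a_pos
  have t2 := C3_pos
  have t4 : 0 ≤ 573 * C3 * (147 * a ^ 2) := by positivity
  refine ⟨5 * 10 ^ 18 * (573 * C3 * (147 * a ^ 2) + 100 * 8 * (3 * a) + 3 * a), by positivity, ?_⟩
  rintro c L hc hK haL hL α rfl
  have hac := I.W_ge hc
  have c0 := I.W_pos hc
  have hcc := right_mem_Icc.2 hac
  have N : NT a c 0 := ⟨by linarith [I.big'], hac, by simp⟩
  have H := N.rg I.big' le_rfl
  have p := H.pt hcc
  have P0 : Prof a s 0 := Prof.zero a0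
  obtain ⟨w1, -, -⟩ := wt_xx (α := 0) I.big' hac (by simp)
  have o0 := p.om_pos
  obtain ⟨r1, r2, r3, r4⟩ := step_fam I F ha (α' := 0) (v := 0) hc hK (by simp)
    (mem_ball_self I.pos) (I.jet c hac)
    (fun k w hw => by
      rw [I.eq c hac k w hw]
      rcases le_total w s with h | h
      · rw [src, co_fn_mul (cmu2 P0 P0) ⟨hw.1, h⟩, ab_zero' a0 I.le, I.zero k w ⟨hw.1, h⟩]
        simp
      · rw [I.src_supp k h]; simp)
    (send_bd I hac) (fun k _ => by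
      rw [P218CH.mu, div_self (P0.rA_ne (left_mem_Icc.2 I.le)), one_mul])
    (fun k hk => send_one I hk 0 hac) (y := 100 * (8 * om a 0 c))
    (co_BB_le (by linarith [(base_small H.base hcc).2.2.2.1, H.ep_small]) (by
        have h1 := p.ef_le_om
        have h2 := N.A_le hcc
        rw [p.norm_ef, p.tau_eq] at h1
        simp only [zero_mul, sub_zero, norm_one, one_div] at h1
        linarith)
      (by linarith [p.ef_le_om])
      (fun i θ => ((I.bdS i).ev_le (mem_Ici.2 hac) o0.le le_rfl le_rfl θ).trans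
        (by nlinarith [I.R_le])) 0) haL hL
  rw [sub_zero] at r3
  rw [ab_zero' a0 haL] at r4
  refine ⟨r1, r2, r3.trans ?_, r4.trans ?_⟩
  · exact mul_le_mul_of_nonneg_right (by linarith) (Real.rpow_nonneg c0.le _)
  · exact (mul_le_mul_of_nonneg_left (fin_le (B2 := 100 * 8 * (3 * a)) (by linarith) (by linarith)
      (by positivity) (by positivity) le_rfl (by linarith) w1) (by norm_num)).trans_eq (by ring)

end Vale.Agent.P218E2
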