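import Vale.Agent.P218EN.Stab
import Vale.Agent.P218E2.Gw
import Vale.Agent.P218E2.E3

/-! The influence of the terminal data at a non-tip level. -/

namespace Vale.Agent.P218E2
open Set Complex Vale.Agent.P218EN Vale.Agent.P218EN.WA

theorem gb_mono {a b s C : ℝ} {A : ℝ → ℂ} {τ ρ : ℤ → ℝ} {d d' σ ω : ℝ → ℝ}
    (O : GB a b s A τ ρ d σ ω C) (h1 : ∀ w ∈ Icc a b, dl A w ≤ d' w)
    (h2 : ∀ w ∈ Icc a b, d' w ≤ d w) : GB a b s A τ ρ d' σ ω C := by
  refine ⟨O.hs, O.one, O.rho, O.pos, O.cont, h1, fun w hw => (h2 w hw).trans (O.dhi w hw),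
    fun k y p g c h hc hg => O.est k y p g c h hc fun w hw => (hg w hw).trans ?_⟩
  refine mul_le_mul_of_nonneg_left ?_ hc
  unfold wt; split_ifs
  · exact le_rfl
  · exact mul_le_mul_of_nonneg_right (h2 w hw) (O.pos w hw).2.le

theorem wsys_same {S : Set ℝ} {ε : ℝ} {d σ ω φ : ℝ → ℝ} (H : WSys S ε d σ ω σ ω)
    (h : ∀ w ∈ S, 0 ≤ φ w) : WSys S ε d σ ω φ φ :=
  ⟨H.e0, H.e1, H.d0, H.d1, H.s0, H.o0, h, h, H.sd, H.od,
    fun w hw => mul_le_mul_of_nonneg_right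
      ((H.od w hw).trans (mul_le_of_le_one_right H.e0 (H.d1 w hw))) (h w hw),
    fun w hw => mul_le_mul_of_nonneg_right (H.od w hw) (h w hw)⟩

theorem bd_glue {a s b B : ℝ} {φ ψ : ℝ → ℝ} {x : WA} (h : Bd (Icc a s) φ ψ x B)
    (h0 : ∀ k, ∀ w ∈ Icc s b, x.co k w = 0) (hp : ∀ w ∈ Icc a b, 0 ≤ φ w ∧ 0 ≤ ψ w) :
    Bd (Icc a b) φ ψ x B := by
  obtain ⟨c, c0, c1, c2, c3⟩ := h
  refine ⟨c, c0, c1, c2, fun k w hw => ?_⟩
  rcases le_total w s with h1 | h1
  · exact c3 k w ⟨hw.1, h1⟩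
  · rw [h0 k w ⟨h1, hw.2⟩, norm_zero]
    refine mul_nonneg (c0 k) ?_
    unfold wt; split_ifs
    · exact (hp w hw).1
    · exact (hp w hw).2

theorem bdX_pins {a b β : ℝ} {ρ : ℤ → ℝ} {ξ : WA} (hξ : ∀ k : ℤ, 2 ≤ |k| → ξ.co k a = 0)
    (hβ : ∀ k : ℤ, |k| ≤ 1 → ‖ξ.co k b‖ ≤ β) (hρ : ∀ k : ℤ, |k| ≤ 1 → β ≤ ρ k) :
    BdX (pt a b (-2)) ρ ξ 3 := by
  have s0 := hasSum_pi_single (0 : ℤ) (1 : ℝ)
  have s1 := hasSum_pi_single (1 : ℤ) (1 : ℝ)
  have s2 := hasSum_pi_single (-1 : ℤ) (1 : ℝ)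
  have s := (s0.add s1).add s2
  refine ⟨_, fun k => ?_, s.summable, s.tsum_eq.le.trans (by norm_num), fun k => ?_⟩
  · simp only [Pi.single_apply]; split_ifs <;> norm_num
  · rcases kp_cases (Or.inl rfl) k with h | ⟨-, rfl⟩ | ⟨-, rfl | rfl⟩
    · have h2 : 2 ≤ |k| := by
        by_contra h3
        have := abs_le.1 (show |k| ≤ 1 by omega)
        obtain rfl | rfl | rfl : k = -1 ∨ k = 0 ∨ k = 1 := by omega
        all_goals norm_num [kp] at h
      have h3 : k ≠ 0 ∧ k ≠ 1 ∧ k ≠ -1 := by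
        refine ⟨?_, ?_, ?_⟩ <;> rintro rfl <;> norm_num at h2
      simp [pt, h, hξ k h2, h3]
    all_goals
      rw [pt, if_neg (by norm_num [kp])]
      simpa using (hβ _ (by norm_num)).trans (hρ _ (by norm_num))

variable {a b s ε c β g t : ℝ} {α : ℂ} {σ ω : ℝ → ℝ} {J J' : Fin 6 → WA}
  {f f' ξ ξ' γ γ' γ1 : WA}

theorem lay_mono (H : Coef a b (Af α) (Af' α) ε) (N : NT a b α) (hg : 0 ≤ g) (ht : 0 < t)
    {u w : ℝ} (hu : u ∈ Icc a b) (hw : w ∈ Icc a b) (huw : u ≤ w) :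
    lay b g (fun w => t * gw α b w) u ≤ lay b g (fun w => t * gw α b w) w ∧
      lay b g (fun w => t * gw α b w) w ≤
        Real.exp (3 / 10 * (w - u)) * lay b g (fun w => t * gw α b w) u := by
  have O := admO_gw N.prof ht
  constructor
  · refine monotoneOn_of_hasDerivWithinAt_nonneg (convex_Icc a b)
      (fun w hw => (lay_deriv O hw).continuousWithinAt)
      (fun w hw => (lay_deriv O (interior_subset hw)).mono interior_subset) (fun w hw => ?_)
      hu hw huw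
    have h1 := H.re w (interior_subset hw)
    have h2 := O.pos w (interior_subset hw)
    positivity
  · have d : ∀ w ∈ Icc a b, HasDerivWithinAt
        (fun u => Real.exp (-(3 / 10 * u)) * lay b g (fun w => t * gw α b w) u) _ (Icc a b) w :=
      fun w hw => (((hasDerivAt_id w).const_mul (3 / 10)).neg.exp.hasDerivWithinAt).mul
        (lay_deriv O hw)
    have := antitoneOn_of_hasDerivWithinAt_nonpos (convex_Icc a b)
      (fun w hw => (d w hw).continuousWithinAt)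
      (fun w hw => (d w (interior_subset hw)).mono interior_subset) (fun w hw => by
        have := mul_le_mul_of_nonneg_left (lay_up H O hg (interior_subset hw))
          (Real.exp_pos (-(3 / 10 * w))).le
        simp only [id, Pi.neg_apply]
        linarith) hu hw huw
    have e : Real.exp (3 / 10 * (w - u)) = Real.exp (3 / 10 * w) * Real.exp (-(3 / 10 * u)) := by
      rw [← Real.exp_add]; congr 1; ring
    rw [e, mul_assoc, ← inv_mul_le_iff₀ (Real.exp_pos _), ← Real.exp_neg]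
    exact this

/-- the boundary layer weights vary at most by the factor `ρ` on the collar `[a, s]` -/
def Ratio (a s b : ℝ) (α : ℂ) (ρ : ℝ) : Prop := ∀ g t, 0 ≤ g → 0 < t → 2 * g / b ≤ t →
  lay b g (fun w => t * gw α b w) s ≤ ρ * lay b g (fun w => t * gw α b w) a

theorem ratio_exp (H : Coef a b (Af α) (Af' α) ε) (N : NT a b α) (has : a ≤ s) (hsb : s ≤ b) :
    Ratio a s b α (Real.exp (3 / 10 * (s - a))) := fun _ _ hg ht _ =>
  (lay_mono H N hg ht (left_mem_Icc.2 N.le) ⟨has, hsb⟩ has).2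

theorem ratio_four (N : NT a b α) (has : a ≤ s) (hs : s ≤ 2 * a) (hb : 8 * a ≤ b) :
    Ratio a s b α 4 := fun g t hg ht h => by
  have hs' : s ∈ Icc a b := ⟨has, by linarith [N.big]⟩
  have h1 := N.lay_le' hg h hs' (by linarith)
  have h2 := mul_le_mul_of_nonneg_left (N.gw_two (left_mem_Icc.2 N.le) hs' hs) ht.le
  have h3 := le_lay (b := b) (ψ := fun w => t * gw α b w) hg a
  linarith

/-- **(E2)** two solutions with the same profile, the same Dirichlet data and collar sources: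
the pins have size `β`, the boundary inhomogeneities have size `g` -/
theorem e2 (H : Base a b α ε (dl (Af α)) σ ω) (N : NT a b α) (hε : 10000000 * 3000000 * ε ≤ 1)
    (has : a ≤ s) (hsb : s ≤ b) (c0 : 0 ≤ c) {ρ : ℝ} (hρ : Ratio a s b α ρ)
    (hc : 600000000 * (c * ρ) ≤ 1)
    (h : Sol a b α J f ξ γ) (h' : Sol a b α J' f' ξ' γ')
    (hJ : ∀ i, Bd (Icc a b) σ ω (J i) 1) (hJ' : ∀ i, Bd (Icc a b) σ ω (J' i) 1)
    (lip : ∀ B, (∀ i, Bd (Icc a s) 1 1 (J i - J' i) B) → Bd (Icc a s) 1 1 (f - f') (c * B))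
    (supp : ∀ k, ∀ w ∈ Icc s b, (f - f').co k w = 0)
    (hξ : ∀ k : ℤ, 2 ≤ |k| → (ξ - ξ').co k a = 0)
    (hβ : ∀ k : ℤ, |k| ≤ 1 → ‖(ξ - ξ').co k b‖ ≤ β) (b0 : Bd {b} 1 1 (γ - γ') g)
    (hγ : HasD {b} (fun w => Complex.sqrt (Af α w)) (γ - γ') γ1) (b1 : Bd {b} 1 1 γ1 g)
    (t0 : 0 < t) (ht : β + 2 * g / b ≤ t) (i : Fin 6) :
    Bd (Icc a b) (lay b g fun w => t * gw α b w) (lay b g fun w => t * gw α b w) (J i - J' i)
      1200000000 := by
  have hb := right_mem_Icc.2 N.le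
  have ha := left_mem_Icc.2 N.le
  have hs : s ∈ Icc a b := ⟨has, hsb⟩
  have g0 := b0.nonneg
  have β0 : 0 ≤ β := (norm_nonneg _).trans (hβ 0 (by norm_num))
  have b0' := N.pos hb
  have g1 : 0 ≤ 2 * g / b := by positivity
  have O := admO_gw N.prof t0
  have L0 : ∀ w ∈ Icc a b, 0 < lay b g (fun w => t * gw α b w) w := fun w hw =>
    lay_pos g0 (O.pos w hw)
  have G := gb_mono (gb_lay H.coef (fun w hw => N.A_re hw) O g0
    fun w hw => N.layer g0 (by linarith) hw) (fun _ _ => le_rfl) fun w hw => H.coef.dl_le hw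
  have M := fun u w hu hw huw => lay_mono H.coef N g0 t0 (u := u) (w := w) hu hw huw
  have e1 : gw α b b = 1 := gw_self N.prof N.le
  have X : ∀ k : ℤ, |k| ≤ 1 → layX a b g (fun w => t * gw α b w) k = t := fun k hk => by
    have := abs_le.1 hk
    obtain rfl | rfl | rfl : k = -1 ∨ k = 0 ∨ k = 1 := by omega
    all_goals rw [layX, if_neg (by norm_num [kp]), e1, mul_one]
  have Lb : lay b g (fun w => t * gw α b w) b = g + t := by simp [lay, e1]
  set φ := lay b g (fun w => t * gw α b w) with hφ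
  have bb : ∀ {x : WA}, Bd {b} 1 1 x g → Bd {b} φ φ x 1 := fun hx => by
    have := (hx.mono (B' := φ b) (by linarith)).weaken (a' := φ) (b' := φ)
      (inv_pos.2 (L0 b hb)).le (by simp [(L0 b hb).ne']) (by simp [(L0 b hb).ne'])
    rwa [inv_mul_cancel₀ (L0 b hb).ne'] at this
  refine (H.stab (wsys_same H.sys fun w hw => (L0 w hw).le) G
    (by rw [X 0 (by norm_num), Lb]; linarith) hε
    (c := 2 * (c * ρ)) (by linarith) h h' hJ hJ' (Bf := 0) le_rfl
    (fun B hB => ?_) (bdX_pins hξ hβ fun k hk => by rw [X k hk]; linarith) (bb b0) hγ (bb b1)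
    i).mono (by norm_num)
  have sub : Icc a s ⊆ Icc a b := Icc_subset_Icc_right hsb
  have k1 : ∀ w ∈ Icc a s, φ w ≤ φ s * (1 : ℝ → ℝ) w := fun w hw => by
    simpa using (M w s (sub hw) hs hw.2).1
  have k2 := lip _ fun i => ((hB i).subset sub).weaken (L0 s hs).le k1 k1
  have k3 : ∀ w ∈ Icc a s, (1 : ℝ → ℝ) w ≤ 2 / φ a * (dl (Af α) w * φ w) := fun w hw => by
    rw [Pi.one_apply, div_mul_eq_mul_div, le_div_iff₀ (L0 a ha)]
    nlinarith [(M a w ha (sub hw) hw.1).1, N.dl_ge (sub hw), L0 w (sub hw)]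
  have k4 : 0 ≤ 2 / φ a := (div_pos two_pos (L0 a ha)).le
  have k5 := k2.weaken (a' := φ) (b' := fun w => dl (Af α) w * φ w) k4
    (fun w hw => (k3 w hw).trans (mul_le_mul_of_nonneg_left
      (mul_le_of_le_one_left (L0 w (sub hw)).le (H.coef.dl_le (sub hw))) k4)) k3
  refine (bd_glue k5 supp fun w hw => ⟨(L0 w hw).le,
    (mul_pos (H.coef.dl_pos hw) (L0 w hw)).le⟩).mono ?_
  rw [div_mul_eq_mul_div, div_le_iff₀ (L0 a ha)]
  nlinarith [mul_le_mul_of_nonneg_left (hρ g t g0 t0 (by linarith)) (mul_nonneg c0 (hB 0).nonneg)]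

/-- **(E2)** the influence of the terminal data on `[a, L]` -/
theorem e2' (H : Base a b α ε (dl (Af α)) σ ω) (N : NT a b α) (hε : 10000000 * 3000000 * ε ≤ 1)
    (has : a ≤ s) (hsb : s ≤ b) (c0 : 0 ≤ c) {ρ : ℝ} (hρ : Ratio a s b α ρ)
    (hc : 600000000 * (c * ρ) ≤ 1)
    (h : Sol a b α J f ξ γ) (h' : Sol a b α J' f' ξ' γ')
    (hJ : ∀ i, Bd (Icc a b) σ ω (J i) 1) (hJ' : ∀ i, Bd (Icc a b) σ ω (J' i) 1)
    (lip : ∀ B, (∀ i, Bd (Icc a s) 1 1 (J i - J' i) B) → Bd (Icc a s) 1 1 (f - f') (c * B))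
    (supp : ∀ k, ∀ w ∈ Icc s b, (f - f').co k w = 0)
    (hξ : ∀ k : ℤ, 2 ≤ |k| → (ξ - ξ').co k a = 0)
    (hβ : ∀ k : ℤ, |k| ≤ 1 → ‖(ξ - ξ').co k b‖ ≤ β) (b0 : Bd {b} 1 1 (γ - γ') g)
    (hγ : HasD {b} (fun w => Complex.sqrt (Af α w)) (γ - γ') γ1) (b1 : Bd {b} 1 1 γ1 g)
    {L : ℝ} (haL : a ≤ L) (hL : 2 * L ≤ b) (i : Fin 6) :
    Bd (Icc a L) 1 1 (J i - J' i) (240000000000 * ((L / b) ^ (3 / 8 : ℝ) * (β + g / b))) := by
  have g0 := b0.nonneg
  have β0 : 0 ≤ β := (norm_nonneg _).trans (hβ 0 (by norm_num))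
  have b0' := N.pos (right_mem_Icc.2 N.le)
  have L0 : 0 < L := by linarith [N.big]
  have g1 : 0 ≤ g / b := by positivity
  have sub : Icc a L ⊆ Icc a b := Icc_subset_Icc_right (by linarith)
  have r0 : 0 ≤ (L / b) ^ (3 / 8 : ℝ) := by positivity
  have r1 : (L / b) ^ (3 / 8 : ℝ) ≤ 1 :=
    Real.rpow_le_one (by positivity) ((div_le_one b0').2 (by linarith)) (by norm_num)
  refine bd_of_forall_pos fun η hη => ?_
  set t := β + 2 * g / b + η / 120000000000 with ht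
  have t1 : 2 * g / b = 2 * (g / b) := by ring
  have t0 : 0 < t := by positivity
  have k : ∀ w ∈ Icc a L, lay b g (fun w => t * gw α b w) w ≤
      100 * t * (L / b) ^ (3 / 8 : ℝ) * (1 : ℝ → ℝ) w := fun w hw => by
    have h1 := N.lay_le g0 (t := t) (by linarith) (sub hw) (by linarith [hw.2])
    have h2 := (N.gw_le (sub hw)).2
    have h3 : (w / b) ^ (3 / 8 : ℝ) ≤ (L / b) ^ (3 / 8 : ℝ) := by
      have := N.pos (sub hw)
      gcongr; exact hw.2
    rw [Pi.one_apply]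
    nlinarith [mul_le_mul_of_nonneg_left (h2.trans (by linarith :
      _ ≤ 2 * (L / b) ^ (3 / 8 : ℝ))) t0.le]
  refine (((e2 H N hε has hsb c0 hρ hc h h' hJ hJ' lip supp hξ hβ b0 hγ b1 t0 (by linarith)
    i).subset sub).weaken (by positivity) k k).mono ?_
  rw [ht, t1]
  nlinarith [mul_nonneg r0 β0, mul_le_mul_of_nonneg_left r1 hη.le]

end Vale.Agent.P218E2
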