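import Vale.Agent.P218E2.Gw
import Vale.Agent.P218E2.Std

/-! Change of the profile: invariance of the boundary operator and bounds for the jets. -/

namespace Vale.Agent.P218E2
open Set Complex Vale.Agent.P218EN Vale.Agent.P218EN.WA Vale.Agent.P218CH

variable {a0 a b c w : ℝ} {α α' : ℂ} {J : Fin 6 → WA}

theorem mu_ne (h' : Prof a b α') (h : Prof a b α) (hw : w ∈ Icc a b) : P218CH.mu α' α w ≠ 0 :=
  div_ne_zero (h'.rA_ne hw) (h.rA_ne hw)

theorem mu_inv (α' α : ℂ) (w : ℝ) : P218CH.mu α α' w = (P218CH.mu α' α w)⁻¹ := (inv_div _ _).symm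

theorem ef_rp (h' : Prof a b α') (h : Prof a b α) (hw : w ∈ Icc a b) :
    ef α w = P218CH.mu α' α w ^ 2 * ef α' w := by
  have := h'.v_ne hw
  rw [mu_sq' h' h hw, ef, ef, div_mul_div_comm, mul_comm (1 - α * (w : ℂ)),
    mul_div_mul_left _ _ this]

theorem Af_rp (h : Prof a b α) (hw : w ∈ Icc a b) :
    Af α' w = P218CH.mu α' α w ^ 2 * Af α w := by
  rw [P218CH.mu_sq, div_mul_cancel₀ _ (h.A_ne hw)]

theorem L2_scale {t : ℂ} (ht : t ≠ 0) (A e m : ℂ) :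
    L2 (t * A) e (t * m) = t⁻¹ * L2 A (t * e) m := by
  have e1 : e * (t * m) = t * e * m := by ring
  have e2 : 2 * e * (t * m) = 2 * (t * e) * m := by ring
  have e3 : (t * m * (1 - t * e * m))⁻¹ = t⁻¹ * (m * (1 - t * e * m))⁻¹ := by
    rw [mul_assoc, mul_inv]
  have e4 : ∀ z : ℂ, t * A * (t⁻¹ * z) = A * z := fun z => by field_simp
  simp only [L2, e1, e2, e3, e4]
  ring

/-- the boundary operator does not depend on the profile -/
theorem BB_rp (h' : Prof a b α') (h : Prof a b α) (hc : c ∈ Icc a b) (J : Fin 6 → WA) :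
    WEq {c} (BB c α' (rp a b α' α J)) (BB c α J) := by
  rw [wEq_iff]
  rintro w rfl θ
  have m0 := mu_ne h' h hc
  have e : amean w α' (rp a b α' α J 0) = P218CH.mu α' α w ^ 2 * amean w α (J 0) := by
    rw [amean, amean, mul_left_comm, ← intervalIntegral.integral_const_mul (P218CH.mu α' α w ^ 2)]
    congr 2
    funext θ
    rw [ev_rp0 h' h J hc, ef_rp h' h hc, add_sub_cancel, mul_pow, mul_div_assoc]
    congr 3
    ring
  rw [ev_BB, ev_BB, e, Af_rp (α' := α') h hc, L2_scale (pow_ne_zero 2 m0), ← ef_rp h' h hc,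
    ev_rp0 h' h J hc, ev_rp1 h' h J hc, ev_rp3 h' h J hc, mu_inv α' α, ef_rp h' h hc]
  simp only [pB, add_sub_cancel]
  field_simp
  ring

theorem re_mu_pos (h' : Prof a b α') (h : Prof a b α) (hw : w ∈ Icc a b) :
    0 < (P218CH.mu α' α w).re := by
  have k : ∀ {A : ℂ}, 0 < A.re → |(Complex.sqrt A).im| < (Complex.sqrt A).re := fun {A} hA => by
    have h2 := congrArg Complex.re (csqrt_sq A)
    simp only [sq, mul_re] at h2
    exact abs_lt_of_sq_lt_sq (by nlinarith) (csqrt_re_nonneg A)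
  have h1 := k (h'.A_re hw)
  have h2 := k (h.A_re hw)
  rw [P218CH.mu, div_re, ← add_div]
  refine div_pos ?_ (normSq_pos.2 (h.rA_ne hw))
  have h3 := mul_lt_mul'' h1 h2 (abs_nonneg _) (abs_nonneg _)
  rw [← abs_mul] at h3
  unfold rA
  linarith [neg_abs_le ((Complex.sqrt (Af α' w)).im * (Complex.sqrt (Af α w)).im)]

theorem mu_sub_one (h' : NT a b α') (h : Prof a b α) (hw : w ∈ Icc a b) :
    ‖P218CH.mu α' α w ^ 2 - 1‖ ≤ 2 * (‖α' - α‖ * w) ∧
      ‖P218CH.mu α' α w - 1‖ ≤ 2 * (‖α' - α‖ * w) := by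
  have h1 : ‖P218CH.mu α' α w ^ 2 - 1‖ ≤ 2 * (‖α' - α‖ * w) := by
    have v := h'.v hw
    rw [mu_sq' h'.prof h hw, div_sub_one (h'.prof.v_ne hw), norm_div, div_le_iff₀ (by linarith),
      show 1 - α * w - (1 - α' * w) = (α' - α) * w by ring, norm_mul, norm_real,
      Real.norm_of_nonneg (h'.pos hw).le]
    nlinarith [mul_nonneg (norm_nonneg (α' - α)) (h'.pos hw).le]
  refine ⟨h1, le_trans ?_ h1⟩
  have h2 := re_le_norm (P218CH.mu α' α w + 1)
  rw [add_re, one_re] at h2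
  rw [show P218CH.mu α' α w ^ 2 - 1 = (P218CH.mu α' α w - 1) * (P218CH.mu α' α w + 1) by ring,
    norm_mul]
  exact le_mul_of_one_le_right (norm_nonneg _) (by linarith [re_mu_pos h'.prof h hw])

/-- all coefficients of the change of profile -/
theorem rp_coef (h' : NT a b α') (h : NT a b α) (hw : w ∈ Icc a b) {κ : ℝ}
    (hκ : ‖α' - α‖ * w ≤ κ) (κ1 : κ ≤ 1 / 4) :
    ‖P218CH.mu α' α w - 1‖ ≤ 2 * κ ∧ ‖P218CH.mu α α' w - 1‖ ≤ 2 * κ ∧ ‖P218CH.mu α' α w‖ ≤ 3 / 2 ∧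
      ‖P218CH.mu α α' w‖ ≤ 3 / 2 ∧ ‖c1 α' α w‖ ≤ κ ∧ ‖c2 α' α w‖ ≤ κ ∧ ‖c4 α' α w‖ ≤ κ := by
  have m1 := (mu_sub_one h' h.prof hw).2
  have m2 := mu_sub_one h h'.prof hw
  rw [norm_sub_rev α α'] at m2
  have n1 := norm_le_norm_sub_add (P218CH.mu α' α w) 1
  have n2 := norm_le_norm_sub_add (P218CH.mu α α' w) 1
  rw [norm_one] at n1 n2
  have κ0 : 0 ≤ κ := le_trans (mul_nonneg (norm_nonneg _) (h.pos hw).le) hκ
  have i0 : w⁻¹ ≤ 64⁻¹ := inv_anti₀ (by norm_num) (h.big.trans hw.1)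
  have a1 := (h'.A_le hw).trans i0
  have a2 := (h.A_le hw).trans i0
  have a3 : ‖xf w‖ ≤ 64⁻¹ / 2 := by rw [h.x_eq hw, mul_inv]; linarith
  have a4 : ‖rA α' w‖ ≤ 1 / 8 := by
    have := norm_csqrt_sq (Af α' w)
    exact (abs_le_of_sq_le_sq' (by unfold rA; linarith) (by norm_num)).2
  have A0 := h'.prof.A_ne hw
  have r0 := h'.prof.rA_ne hw
  have eA := Af_rp (α' := α) h'.prof hw
  have k : ‖P218CH.mu α' α w * (P218CH.mu α α' w ^ 2 - 1)‖ ≤ 3 * κ := by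
    rw [norm_mul]
    nlinarith [mul_le_mul (show ‖P218CH.mu α' α w‖ ≤ 3 / 2 by linarith)
      (show ‖P218CH.mu α α' w ^ 2 - 1‖ ≤ 2 * κ by linarith [m2.1]) (norm_nonneg _) (by norm_num)]
  refine ⟨by linarith, by linarith [m2.2], by linarith, by linarith [m2.2], ?_, ?_, ?_⟩
  · have e : c1 α' α w = P218CH.mu α' α w * (P218CH.mu α α' w ^ 2 - 1) *
        (4 * xf w - (3 * Af α' w + Af α w)) := by
      rw [c1, eA]; field_simp; ring
    have h1 := norm_sub_le (4 * xf w) (3 * Af α' w + Af α w)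
    have h2 := norm_add_le (3 * Af α' w) (Af α w)
    simp only [norm_mul, Complex.norm_ofNat] at h1 h2
    rw [e, norm_mul]
    nlinarith [mul_le_mul k (show ‖4 * xf w - (3 * Af α' w + Af α w)‖ ≤ 1 / 8 by linarith)
      (norm_nonneg _) (by positivity)]
  · have e : c2 α' α w = P218CH.mu α' α w * (P218CH.mu α α' w ^ 2 - 1) * (-2 * Af α w) := by
      rw [c2]; nth_rewrite 1 [eA]; field_simp; ring
    rw [e, norm_mul, norm_mul (-2 : ℂ), norm_neg, Complex.norm_two]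
    nlinarith [mul_le_mul k a2 (norm_nonneg _) (by positivity)]
  · have e : c4 α' α w = P218CH.mu α' α w * (P218CH.mu α α' w ^ 2 - 1) * -rA α' w := by
      rw [c4, eA, ← rA_sq α']; field_simp; ring
    rw [e, norm_mul, norm_neg]
    nlinarith [mul_le_mul k a4 (norm_nonneg _) (by positivity)]

theorem bd_fn_mul {S : Set ℝ} (hS : S ⊆ Icc a b) {f : ℝ → ℂ} (hf : ContinuousOn f (Icc a b))
    {t B : ℝ} (ht : 0 ≤ t) (h : ∀ w ∈ S, ‖f w‖ ≤ t) {σ ω : ℝ → ℝ} {x : WA} (hx : Bd S σ ω x B) :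
    Bd S σ ω (fn a b f * x) (t * B) :=
  hx.of_le ht fun k w hw c _ hc => by
    rw [co_fn_mul hf (hS hw), norm_mul, mul_assoc]
    exact mul_le_mul (h w hw) hc (norm_nonneg _) ht

theorem bd_fn {S : Set ℝ} (hS : S ⊆ Icc a b) {f : ℝ → ℂ} (hf : ContinuousOn f (Icc a b))
    {t : ℝ} (ht : 0 ≤ t) {σ : ℝ → ℝ} (ω : ℝ → ℝ) (h : ∀ w ∈ S, ‖f w‖ ≤ t * σ w) :
    Bd S σ ω (fn a b f) t :=
  Bd.sc ht fun w hw => by rw [mkB_of_mem hf (hS hw)]; exact h w hw

theorem bd_fn_sub {S : Set ℝ} (hS : S ⊆ Icc a b) {f g : ℝ → ℂ} (hf : ContinuousOn f (Icc a b))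
    (hg : ContinuousOn g (Icc a b)) {t : ℝ} (ht : 0 ≤ t) {σ : ℝ → ℝ} (ω : ℝ → ℝ)
    (h : ∀ w ∈ S, ‖f w - g w‖ ≤ t * σ w) : Bd S σ ω (fn a b f - fn a b g) t :=
  Bd.of_mode0 ht (fun w hw => by
    simpa [fn, co_sc, mkB_of_mem hf (hS hw), mkB_of_mem hg (hS hw)] using h w hw)
    fun k hk w _ => by simp [fn, co_sc, hk]

/-- the change of profile in arbitrary weights -/
theorem bd_rp (h' : NT a b α') (h : NT a b α) {S : Set ℝ} (hS : S ⊆ Icc a b) {σ ω : ℝ → ℝ}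
    {t B : ℝ} (ht : 0 ≤ t) (h1 : ∀ w ∈ S, ‖α' - α‖ * w ≤ t * σ w) (h2 : ∀ w ∈ S, t * σ w ≤ 1 / 4)
    (hJ : ∀ i, Bd S σ ω (J i) B) (i : Fin 6) : Bd S σ ω (rp a b α' α J i) (4 * t + 5 * B) := by
  have C := fun w hw => rp_coef h' h (hS hw) (h1 w hw) (h2 w hw)
  have B0 := (hJ 0).nonneg
  have m1 := fun i => bd_fn_mul hS (cmu h'.prof h.prof) (t := 3 / 2) (by norm_num)
    (fun w hw => (C w hw).2.2.1) (hJ i)
  have m2 := fun i => bd_fn_mul hS (cmu h.prof h'.prof) (t := 3 / 2) (by norm_num)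
    (fun w hw => (C w hw).2.2.2.1) (hJ i)
  fin_cases i
  · have u : Bd S σ ω (fn a b (P218CH.mu α' α) - 1) (2 * t) :=
      Bd.of_mode0 (by positivity) (fun w hw => by
        simpa [fn, co_sc, co_one, mkB_of_mem (cmu h'.prof h.prof) (hS hw), mul_assoc] using
          (C w hw).1) fun k hk w _ => by simp [fn, co_sc, co_one, hk]
    exact ((u.add (m1 0)).mono (by linarith)).congr fun k w _ => by simp [rp, mul_add]; ring
  · exact (m1 1).mono (by linarith)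
  · exact (m1 2).mono (by linarith)
  · have u := bd_fn_sub hS (cmu h'.prof h.prof) (cmu h.prof h'.prof) (t := 4 * t) (by positivity)
      (σ := σ) ω fun w hw => by
        have := norm_sub_le (P218CH.mu α' α w - 1) (P218CH.mu α α' w - 1)
        rw [sub_sub_sub_cancel_right] at this
        linarith [(C w hw).1, (C w hw).2.1]
    exact ((((u.add (m1 0)).add (m2 3)).sub (m2 0)).mono (by linarith)).congr fun k w _ => by
      simp [rp, mul_add, mul_sub]; ring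
  · have u := bd_fn hS (cc1 h'.prof h.prof) ht (σ := σ) ω fun w hw => (C w hw).2.2.2.2.1
    have u1 := bd_fn_mul hS (cc1 h'.prof h.prof) (t := 1 / 4) (by norm_num)
      (fun w hw => (C w hw).2.2.2.2.1.trans (h2 w hw)) (hJ 0)
    have u2 := bd_fn_mul hS (cc2 h'.prof h.prof) (t := 1 / 4) (by norm_num)
      (fun w hw => (C w hw).2.2.2.2.2.1.trans (h2 w hw)) (hJ 3)
    exact ((((u.add u1).add u2).add (m2 4)).mono (by linarith)).congr fun k w _ => by
      simp [rp, mul_add]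
  · have u1 := bd_fn_mul hS (cc4 h'.prof h.prof) (t := 1 / 4) (by norm_num)
      (fun w hw => (C w hw).2.2.2.2.2.2.trans (h2 w hw)) (hJ 1)
    exact (u1.add (hJ 5)).mono (by linarith)

theorem NT.rg (h : NT a b α) (h0 : 10 ^ 30 ≤ a0) (ha : a0 ≤ a) : Rg a0 a b α := by
  refine ⟨h0, ha, h.le, fun w hw => ?_⟩
  have v := h.v hw
  have w0 := h.pos hw
  have h1 : a0 / (8 * w) ≤ 1 / 8 := by
    rw [div_le_iff₀ (by positivity)]; linarith [hw.1]
  nlinarith [norm_nonneg (1 - α * w)]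

/-- comparison of the standard weights in the non-tip regime -/
theorem wt_comp {a' b' u : ℝ} (h : NT a b α) (h' : NT a' b' α') (h0 : 10 ^ 30 ≤ a0) (ha : a0 ≤ a)
    (hw : w ∈ Icc a b) (hu : u ∈ Icc a' b') (hwu : w ≤ u) :
    om a0 α' u ≤ 3 * om a0 α w ∧ sg a0 α' u ≤ 6 * sg a0 α w := by
  have p := (h.rg h0 ha).pt hw
  have p' : Pt a0 α' u := ((h'.mono hu.1 le_rfl hu.2).rg h0 (p.le.trans hwu)).pt
    (left_mem_Icc.2 le_rfl)
  have v := h.v hw
  have v' := h'.v hu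
  have w0 := p.w_pos
  have u0 := p'.w_pos
  have t1 : tau α' u ≤ 3 * tau α w := by
    rw [p.tau_eq, p'.tau_eq, ← mul_div_assoc, div_le_div_iff₀ u0 w0]
    nlinarith
  have o1 : om a0 α' u ≤ 3 * om a0 α w := by
    have a0p := p.a0_pos
    have t0 := p.tau_pos
    have t0' := p'.tau_pos
    have e3 : (3 : ℝ) ^ (7 / 8 : ℝ) ≤ 3 := by
      simpa using Real.rpow_le_rpow_of_exponent_le (x := 3) (by norm_num)
        (by norm_num : (7 / 8 : ℝ) ≤ 1)
    calc om a0 α' u ≤ (√a0)⁻¹ * (3 * (a0 * tau α w)) ^ (7 / 8 : ℝ) := by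
          have : a0 * tau α' u ≤ 3 * (a0 * tau α w) := by nlinarith
          unfold om; gcongr
      _ ≤ (√a0)⁻¹ * (3 * (a0 * tau α w) ^ (7 / 8 : ℝ)) := by
          rw [Real.mul_rpow (by norm_num) (by positivity)]; gcongr
      _ = _ := by unfold om; ring
  have m1 : P218EN.mu α' u ≤ 3 * P218EN.mu α w := by
    refine le_of_sq_le_sq ?_ (by have := p.mu_pos; positivity)
    have r := re_le_norm (1 - α * w)
    rw [mul_pow, p.mu_sq, p'.mu_sq, inv_eq_one_div, ← div_eq_mul_inv,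
      div_le_div_iff₀ (by nlinarith) (by nlinarith)]
    nlinarith
  refine ⟨o1, ?_⟩
  have d := h.dl_ge hw
  have s1 : sg a0 α' u ≤ om a0 α' u + P218EN.mu α' u :=
    mul_le_of_le_one_left (add_pos p'.om_pos p'.mu_pos).le p'.dl_le
  unfold sg at *
  nlinarith [p.om_pos, p.mu_pos]

end Vale.Agent.P218E2
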