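import Vale.Agent.P218E2.E2
import Vale.Agent.P218E2.Repin

/-! Restriction to a non-tip level, re-pinning, and comparison with the solution for that cut. -/

namespace Vale.Agent.P218E2
open Set Complex Vale.Agent.P218EN Vale.Agent.P218EN.WA Vale.Agent.P218CH

variable {a0 a c : ℝ} {α α' : ℂ} {J J' : Fin 6 → WA}

theorem nt_of (h0 : 10 ^ 30 ≤ a0) (ha : a0 ≤ a) (hac : a ≤ c) (hs : ‖α'‖ * c ≤ 1 / 4) :
    NT a c α' := ⟨by linarith, hac, by linarith⟩

/-- the re-pinned profile parameter -/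
theorem repin (h0 : 10 ^ 30 ≤ a0) (ha : a0 ≤ a) (hac : a ≤ c) (hs : ‖α'‖ * c ≤ 1 / 4) {η : ℂ}
    (hη : ‖η‖ ≤ sg a0 α' c) (hα : 1 - α * c = (1 - α' * c) * (1 + η) ^ 2) :
    ‖α - α'‖ * c ≤ 3 * ‖η‖ ∧ NT a c α ∧ P218CH.mu α α' c * (1 + η) = 1 := by
  have N' := nt_of h0 ha hac hs
  have hc := right_mem_Icc.2 hac
  have R := N'.rg h0 ha
  have c0 := N'.pos hc
  have η1 : ‖η‖ ≤ 1 / 1000 := by
    obtain ⟨-, h1, -, -, -, -, h2⟩ := base_small R.base hc
    linarith
  have h1 : ‖α - α'‖ * c ≤ 3 * ‖η‖ := by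
    have e : (α - α') * c = -((1 - α' * c) * ((2 + η) * η)) := by linear_combination -hα
    have h2 := norm_sub_le 1 (α' * c)
    have h3 := norm_add_le 2 η
    rw [norm_one, norm_mul, norm_real, Real.norm_of_nonneg c0.le] at h2
    rw [Complex.norm_two] at h3
    rw [← Real.norm_of_nonneg c0.le, ← norm_real, ← norm_mul, e, norm_neg, norm_mul, norm_mul,
      ← mul_assoc]
    gcongr
    nlinarith [mul_le_mul (show ‖1 - α' * c‖ ≤ 5 / 4 by linarith)
      (show ‖2 + η‖ ≤ 2001 / 1000 by linarith) (norm_nonneg _) (by norm_num)]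
  have N : NT a c α := ⟨N'.big, hac, by
    nlinarith [mul_le_mul_of_nonneg_right (norm_le_norm_sub_add α α') c0.le]⟩
  refine ⟨h1, N, ?_⟩
  have h2 : (P218CH.mu α α' c * (1 + η)) ^ 2 = 1 ^ 2 := by
    have h3 := N.prof.v_ne hc
    rw [mul_pow, mu_sq' N.prof N'.prof hc, div_mul_eq_mul_div, ← hα, div_self h3, one_pow]
  rcases sq_eq_sq_iff_eq_or_eq_neg.1 h2 with h | h
  · exact h
  · exfalso
    have h3 := (mu_sub_one N N'.prof hc).2
    have e : (2 : ℂ) = -((P218CH.mu α α' c - 1) * (1 + η) + η) := by linear_combination h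
    have h4 := congrArg norm e
    have h5 := norm_add_le ((P218CH.mu α α' c - 1) * (1 + η)) η
    have h6 := norm_add_le 1 η
    rw [norm_neg, Complex.norm_two] at h4
    rw [norm_mul] at h5
    rw [norm_one] at h6
    nlinarith [mul_le_mul (show ‖P218CH.mu α α' c - 1‖ ≤ 1 / 2 by linarith)
      (show ‖1 + η‖ ≤ 2 by linarith) (norm_nonneg _) (by norm_num)]

/-- the re-pinned jets stay in a ball of the standard class -/
theorem bd_repin (h0 : 10 ^ 30 ≤ a0) (ha : a0 ≤ a) (hac : a ≤ c) (hs : ‖α'‖ * c ≤ 1 / 4) {B : ℝ}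
    (hB : B ≤ 1) (hJ' : ∀ i, Bd (Icc a c) (sg a0 α') (om a0 α') (J' i) B)
    (hα : 1 - α * c = (1 - α' * c) * (1 + (J' 0).co 0 c) ^ 2) (i : Fin 6) :
    Bd (Icc a c) (sg a0 α) (om a0 α) (rp a c α α' J' i) (102 * B) := by
  have N' := nt_of h0 ha hac hs
  have hc := right_mem_Icc.2 hac
  have B0 := (hJ' 0).nonneg
  have p' := (N'.rg h0 ha).pt hc
  have hη := (hJ' 0).co_le 0 hc (by simpa using p'.sg_pos.le)
  rw [wt_zero] at hη
  obtain ⟨h1, N, -⟩ := repin h0 ha hac hs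
    (hη.trans (mul_le_of_le_one_left p'.sg_pos.le hB)) hα
  have R := N.rg h0 ha
  refine (bd_rp N N' Subset.rfl (t := 18 * B) (B := 6 * B) (by positivity) (fun w hw => ?_)
    (fun w hw => ?_) (fun i => (hJ' i).weaken (by norm_num)
      (fun w hw => (wt_comp N N' h0 ha hw hw le_rfl).2) fun w hw => by
        linarith [(wt_comp N N' h0 ha hw hw le_rfl).1, (R.pt hw).om_pos]) i).mono
    (le_of_eq (by ring))
  · nlinarith [mul_le_mul_of_nonneg_left hw.2 (norm_nonneg (α - α')),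
      mul_le_mul_of_nonneg_left (wt_comp N N' h0 ha hw hc hw.2).2 B0]
  · obtain ⟨h2, h3, -, -, -, -, h4⟩ := base_small R.base hw
    nlinarith

theorem cmu2 (h : Prof a c α) (h' : Prof a c α') :
    ContinuousOn (fun w => P218CH.mu α α' w ^ 2) (Icc a c) := (cmu h h').pow 2

/-- the re-pinned restriction as a solution -/
theorem sol_rp (h : Prof a c α) (h' : Prof a c α') (hac : a ≤ c) {f' : WA}
    (hj : Jet a c (Af α') J') (he : WEq (Icc a c) (EE a c α' J') f') :
    Sol a c α (rp a c α α' J') (fn a c (fun w => P218CH.mu α α' w ^ 2) * f')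
      (rp a c α α' J' 0 - rp a c α α' J' 2) (BB c α (rp a c α α' J')) := by
  have j := jet_rp h h' hj
  refine ⟨j, fun k w hw => ?_, fun k => ?_, fun _ _ _ => rfl⟩
  · rw [EE_rp h h' J' k w hw, co_fn_mul (cmu2 h h') hw, co_fn_mul (cmu2 h h') hw,
      he k w hw]
  · rw [co_sub, BoundedContinuousFunction.sub_apply, j.t2' k (pt_mem hac _ k)]
    ring

/-- **STEP.** `J'` solves the equation on `[a, c]` for the profile `α'`; `J` is the solution for
the cut `c`, the re-pinned profile `α`, the natural boundary condition and the same collar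
input. -/
theorem step {s L cc β y : ℝ} {f f' ξ : WA} (h0 : 10 ^ 34 ≤ a0) (ha : a0 ≤ a) (has : a ≤ s)
    (hsa : s ≤ 2 * a) (hac' : 8 * a ≤ c) (hs : ‖α'‖ * c ≤ 1 / 4) (c0 : 0 ≤ cc)
    (hc : 2400000000 * cc ≤ 1)
    (hj : Jet a c (Af α') J') (he : WEq (Icc a c) (EE a c α' J') f')
    (hJ' : ∀ i, Bd (Icc a c) (sg a0 α') (om a0 α') (J' i) 1)
    (hα : 1 - α * c = (1 - α' * c) * (1 + (J' 0).co 0 c) ^ 2)
    (h : Sol a c α J f ξ 0) (hJ : ∀ i, Bd (Icc a c) (sg a0 α) (om a0 α) (J i) 1)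
    (pins : ∀ k : ℤ, |k| ≤ 1 → ξ.co k c = 0)
    (dir : ∀ k : ℤ, 2 ≤ |k| →
      ξ.co k a = (1 + (k : ℂ) ^ 2) * (P218CH.mu α α' a * (J' 0).co k a))
    (lip : ∀ B, (∀ i, Bd (Icc a s) 1 1 (rp a c α α' J' i - J i) B) →
      Bd (Icc a s) 1 1 (fn a c (fun w => P218CH.mu α α' w ^ 2) * f' - f) (cc * B))
    (sf : ∀ k, ∀ w ∈ Icc s c, f.co k w = 0) (sf' : ∀ k, ∀ w ∈ Icc s c, f'.co k w = 0)
    (hβ : ∀ k : ℤ, k = 1 ∨ k = -1 → ‖(J' 0).co k c‖ ≤ β) (hy : ‖(BB c α' J').co 0 c‖ ≤ y)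
    (haL : a ≤ L) (hL : 2 * L ≤ c) (i : Fin 6) :
    Bd (Icc a L) 1 1 (rp a c α α' J' i - J i)
      (10 ^ 18 * ((L / c) ^ (3 / 8 : ℝ) * (β + (y + om a0 α' c) / c))) := by
  have h0' : 10 ^ 30 ≤ a0 := le_trans (by norm_num) h0
  have hsc : s ≤ c := by linarith
  have hac := has.trans hsc
  have hcc := right_mem_Icc.2 hac
  have haa := left_mem_Icc.2 hac
  have N' := nt_of h0' ha hac hs
  have p' := (N'.rg h0' ha).pt hcc
  have hη := (hJ' 0).co_le 0 hcc (by simpa using p'.sg_pos.le)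
  rw [wt_zero, one_mul] at hη
  obtain ⟨d1, N, m1⟩ := repin h0' ha hac hs hη hα
  have R := N.rg h0' ha
  have s17 : 10 ^ 17 ≤ √a0 := Real.le_sqrt_of_sq_le (le_trans (by norm_num) h0)
  have e1 : 10000000 * 3000000 * (102 * ep a0) ≤ 1 := by
    rw [ep, ← mul_div_assoc, ← mul_div_assoc, div_le_one p'.s_pos]; linarith
  have H := base_scale R.base (M := 102) (by norm_num) (by linarith)
  have S := sol_rp N.prof N'.prof hac hj he
  have b1 := fun i => bd_scale (by norm_num)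
    ((bd_repin h0' ha hac hs le_rfl hJ' hα i).mono (mul_one _).le)
  have b2 := fun i => bd_scale (M := 102) (by norm_num) ((hJ i).mono (by norm_num))
  have b3 := fun i => (b1 i).subset (singleton_subset_iff.2 hcc)
  have β0 : 0 ≤ β := (norm_nonneg _).trans (hβ 1 (Or.inl rfl))
  have y0 : 0 ≤ y := (norm_nonneg _).trans hy
  have o1 := (wt_comp (N'.mono hac le_rfl le_rfl) N h0' (ha.trans hac) (left_mem_Icc.2 le_rfl) hcc
    le_rfl).1
  have o0 := p'.om_pos
  have g0 := bd_BB H hcc b3 (y := y) (by rwa [BB_rp N.prof N'.prof hcc J' 0 c rfl])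
  have g1 := bd_BB1 H hcc S.jet b3
  have m2 : ‖P218CH.mu α α' c‖ ≤ 3 / 2 := by
    obtain ⟨-, h2, -, -, -, -, h3⟩ := base_small (N'.rg h0' ha).base hcc
    exact (rp_coef N N' hcc le_rfl (by linarith)).2.2.1
  have key := e2' H N e1 has hsc c0 (ratio_four N has hsa hac') (by linarith) S h b1 b2 lip
    (fun k w hw => by
      have hw' : w ∈ Icc a c := ⟨has.trans hw.1, hw.2⟩
      rw [co_sub, BoundedContinuousFunction.sub_apply, co_fn_mul (cmu2 N.prof N'.prof) hw',
        sf k w hw, sf' k w hw, mul_zero, sub_zero])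
    (fun k hk => by
      have k0 : on k = 0 := if_neg (by rintro rfl; norm_num at hk)
      rw [co_sub, co_sub, BoundedContinuousFunction.sub_apply,
        BoundedContinuousFunction.sub_apply, S.jet.t2' k haa, dir k hk,
        co_rp0 N.prof N'.prof J' haa, k0]
      ring)
    (β := 3 * β) (fun k hk => by
      rw [co_sub, co_sub, BoundedContinuousFunction.sub_apply,
        BoundedContinuousFunction.sub_apply, S.jet.t2' k hcc, pins k hk,
        co_rp0 N.prof N'.prof J' hcc]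
      have k1 : ∀ k : ℤ, k = 1 ∨ k = -1 → ‖P218CH.mu α α' c * (J' 0).co k c‖ ≤ 3 / 2 * β :=
        fun k hk => by
          rw [norm_mul]; exact mul_le_mul m2 (hβ k hk) (norm_nonneg _) (by norm_num)
      have := abs_le.1 hk
      obtain rfl | rfl | rfl : k = -1 ∨ k = 0 ∨ k = 1 := by omega
      · have := k1 (-1) (Or.inr rfl)
        simp only [on, neg_eq_zero, one_ne_zero, if_false, zero_add, sub_zero, Int.cast_neg,
          Int.cast_one, even_two, Even.neg_pow, one_pow, neg_mul, one_mul, sub_neg_eq_add]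
        linarith [norm_add_le (P218CH.mu α α' c * (J' 0).co (-1) c)
          (P218CH.mu α α' c * (J' 0).co (-1) c)]
      · simpa [on, m1] using β0
      · have := k1 1 (Or.inl rfl)
        simp only [on, one_ne_zero, if_false, zero_add, sub_zero, Int.cast_one, one_pow, neg_mul,
          one_mul, sub_neg_eq_add]
        linarith [norm_add_le (P218CH.mu α α' c * (J' 0).co 1 c)
          (P218CH.mu α α' c * (J' 0).co 1 c)])
    (g := 500000 * (y + om a0 α' c)) (by rw [sub_zero]; exact g0.mono (by linarith))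
    (by rw [sub_zero]; exact P218PB.hasD_BB hac S.jet) (g1.mono (by linarith)) haL hL i
  refine key.mono ?_
  have c1 := N.pos hcc
  have r0 : 0 ≤ (L / c) ^ (3 / 8 : ℝ) := Real.rpow_nonneg (div_nonneg (by linarith [N.big]) c1.le) _
  have r1 : 0 ≤ (y + om a0 α' c) / c := by positivity
  rw [mul_div_assoc]
  nlinarith [mul_nonneg r0 β0, mul_nonneg r0 r1]

end Vale.Agent.P218E2
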