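import Vale.Agent.P218E2.Fam
import Vale.Agent.P218CH.CanA

/-! The comparison of two levels holds. -/

namespace Vale.Agent.P218E2
open Set Complex Metric Vale.Agent.P218EN Vale.Agent.P218CH
open Vale.Agent.P218TP (GG)

variable {V : Type*} [NormedAddCommGroup V] [NormedSpace ℂ V] {a s r R K L : ℝ} {RV : Set V}
  {Cf : V × (Fin 6 → WA) → WA} {JS : Fin 6 → WA} {J : ℝ → ℂ × V → Fin 6 → WA}

theorem stepAt (I : EndIn a s r R K RV Cf JS) (F : EndFam a s r R K RV Cf JS J)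
    (ha : 10 ^ 34 ≤ a) (hL : a ≤ L) : StepAt a r K L JS J := by
  obtain ⟨C, C0, h⟩ := fam_step I F ha
  obtain ⟨C', C0', h'⟩ := fam_stepS I F ha
  have l0 := Real.rpow_nonneg (I.a_pos.le.trans hL) (3 / 8 : ℝ)
  have K0 := I.K_big
  have a0 := I.a_pos
  refine ⟨(C + C') * L ^ (3 / 8 : ℝ), a ^ 2 + 4 * K + 2 * L + (64 * C) ^ 2, fun c hc => ?_⟩
  have s1 := sq_nonneg a
  have s2 := sq_nonneg (64 * C)
  have c0 : 0 < c := by linarith
  have p0 := (ph_pos c0).le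
  refine ⟨fun W h1 h2 α' hD hs v hv => ?_, ?_⟩
  · obtain ⟨r1, -, r3, -, r5⟩ := h W c L α' v (by linarith) (by linarith) h1 h2 hD hv hs hL
      (by linarith) _ rfl
    refine ⟨r1, (mul_le_mul_of_nonneg_right r3 c0.le).trans ?_, r5.trans ?_⟩
    · have h3 : 64 * C ≤ √c := Real.le_sqrt_of_sq_le (by linarith)
      have h4 := Real.sqrt_pos.2 c0
      rw [mul_assoc, ← Real.rpow_add_one c0.ne', show (-(3 / 2) + 1 : ℝ) = -(1 / 2) by norm_num,
        Real.rpow_neg c0.le, ← Real.sqrt_eq_rpow, ← div_eq_mul_inv, div_le_iff₀ h4]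
      linarith
    · unfold P218CH.ph at *; gcongr; linarith
  · obtain ⟨r1, -, -, r4⟩ := h' c L (by linarith) (by linarith) hL (by linarith) _ rfl
    refine ⟨_, r1, r4.trans ?_⟩
    unfold P218CH.ph at *; gcongr; linarith

/-- the expansion of the absolute jets at one level -/
theorem can_level (I : EndIn a s r R K RV Cf JS) (F : EndFam a s r R K RV Cf JS J)
    (ha : 10 ^ 34 ≤ a) (hL : a ≤ L) : ∃ Y : Fin 3 → V → Fin 6 → WA,
      (∀ n, DifferentiableOn ℂ (Y n) (ball 0 r)) ∧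
      (∃ B : ℝ, ∀ n, ∀ v ∈ ball (0 : V) r, ‖Y n v‖ ≤ B) ∧
      (∃ C W1 : ℝ, ∀ W, W1 ≤ W → ∀ q ∈ D W K ×ˢ ball (0 : V) r,
        ‖ab a L q.1 (J W q) - Yt Y (GG W q.1) q.2‖ ≤ C * W ^ (-(2 + 1 / 8) : ℝ)) ∧
      Y 0 0 = clp a L JS :=
  can_hard I F hL (stepAt I F ha hL)

end Vale.Agent.P218E2
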